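import Mathlib

set_option linter.unusedSectionVars false

namespace Vale.Agent.P034

open Finset
open scoped NNReal

section Decode

variable {α : Type*} [DecidableEq α]

/-- the part of `H` whose label exceeds its role by more than `D1 - j` -/
def res (role : Finset α → α → ℕ) (D1 : ℕ) (H : Finset α) (L : α → ℕ) (j : ℕ) : Finset α :=
  H.filter fun x => role H x + D1 < L x + j

/-- weight of a set with respect to the roles in `H` -/
noncomputable def Yw (role : Finset α → α → ℕ) (H T : Finset α) : ℝ :=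
  ∑ x ∈ T, (3 / 4 : ℝ) ^ (role H x)

/-- allowed bound -/
noncomputable def bnd (j i : ℕ) : ℝ := 8 * (13 * (3 / 2 : ℝ) ^ i - 12 * (3 / 2 : ℝ) ^ j)

/-- excess over the allowed bounds at levels `i ∈ [j, D1]` -/
noncomputable def Vex (role : Finset α → α → ℕ) (D1 j : ℕ) (H : Finset α) (L : α → ℕ) : ℝ≥0 :=
  (Finset.Icc j D1).sup fun i => Real.toNNReal (Yw role H (res role D1 H L i) - bnd j i)

theorem mem_res {role : Finset α → α → ℕ} {D1 : ℕ} {H : Finset α} {L : α → ℕ} {j : ℕ} {x : α} :
    x ∈ res role D1 H L j ↔ x ∈ H ∧ role H x + D1 < L x + j := by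
  rw [res, mem_filter]

theorem Vex_le_iff {role : Finset α → α → ℕ} {D1 j : ℕ} {H : Finset α} {L : α → ℕ} {v : ℝ}
    (hv : 0 ≤ v) :
    (Vex role D1 j H L : ℝ) ≤ v ↔
      ∀ i ∈ Finset.Icc j D1, Yw role H (res role D1 H L i) ≤ bnd j i + v := by
  have h1 : (Vex role D1 j H L : ℝ) ≤ v ↔ Vex role D1 j H L ≤ Real.toNNReal v := by
    rw [← NNReal.coe_le_coe, Real.coe_toNNReal v hv]
  rw [h1, Vex, Finset.sup_le_iff]
  refine forall₂_congr fun i _ => ?_
  rw [Real.toNNReal_le_toNNReal_iff hv]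
  constructor <;> intro h <;> linarith

theorem Yw_nonneg (role : Finset α → α → ℕ) (H T : Finset α) : 0 ≤ Yw role H T :=
  sum_nonneg fun _ _ => by positivity

theorem Yw_mono (role : Finset α → α → ℕ) (H : Finset α) {S T : Finset α} (h : S ⊆ T) :
    Yw role H S ≤ Yw role H T :=
  sum_le_sum_of_subset_of_nonneg h fun _ _ _ => by positivity

/-- the functional minimised at stage `s` -/
noncomputable def Phi (role : Finset α → α → ℕ) (D1 s : ℕ) (H : Finset α) (L : α → ℕ) : ℝ :=
  Yw role H (res role D1 H L s) + (1 / 4) * (Vex role D1 (s + 1) H L : ℝ)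

/-- badness of a residual set -/
def IsBad (role : Finset α → α → ℕ) (s : ℕ) (H T : Finset α) : Prop :=
  (s = 0 ∧ T.Nonempty) ∨ (0 < s ∧ 8 * (3 / 2 : ℝ) ^ s < Yw role H T)

/-- `T` is output at stage `s` under the labels `L` -/
def Out (role : Finset α → α → ℕ) (D1 : ℕ) (F : Finset (Finset α)) (s : ℕ) (L : α → ℕ)
    (T : Finset α) : Prop :=
  ∃ H ∈ F, res role D1 H L s = T ∧ IsBad role s H T ∧
    (Vex role D1 (s + 1) H L : ℝ) ≤ 32 * (3 / 2 : ℝ) ^ (s + 1) ∧
    ∀ H' ∈ F, res role D1 H' L s ⊆ T → Phi role D1 s H L ≤ Phi role D1 s H' L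

/-- the decoding choice -/
def IsDec (role : Finset α → α → ℕ) (D1 : ℕ) (F : Finset (Finset α)) (s : ℕ) (L : α → ℕ)
    (Hs : Finset α) : Prop :=
  Hs ∈ F ∧ res role D1 Hs L s = ∅ ∧
    ∀ H ∈ F, res role D1 H L s = ∅ → Vex role D1 (s + 1) Hs L ≤ Vex role D1 (s + 1) H L

theorem exists_isDec {role : Finset α → α → ℕ} {D1 : ℕ} {F : Finset (Finset α)} {s : ℕ}
    {L : α → ℕ} {H : Finset α} (hH : H ∈ F) (h0 : res role D1 H L s = ∅) :
    ∃ Hs, IsDec role D1 F s L Hs := by
  obtain ⟨Hs, hHs, hmin⟩ := (F.filter fun H => res role D1 H L s = ∅).exists_min_image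
    (fun H => Vex role D1 (s + 1) H L) ⟨H, by simp [hH, h0]⟩
  rw [mem_filter] at hHs
  exact ⟨Hs, hHs.1, hHs.2, fun H' h1 h2 => hmin H' (by simp [h1, h2])⟩

/-- the modified labels -/
def relabel (role : Finset α → α → ℕ) (D1 s : ℕ) (H T : Finset α) (L : α → ℕ) : α → ℕ :=
  fun x => if x ∈ T then role H x + D1 - s else L x

theorem res_mono (role : Finset α → α → ℕ) (D1 : ℕ) (H : Finset α) (L : α → ℕ) {i j : ℕ}
    (h : i ≤ j) : res role D1 H L i ⊆ res role D1 H L j := by
  intro x hx
  rw [mem_res] at hx ⊢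
  exact ⟨hx.1, by omega⟩

/-- exactness of the decoding -/
theorem decode {role : Finset α → α → ℕ} {D1 : ℕ} {F : Finset (Finset α)} {s : ℕ}
    (hs : s < D1) {L : α → ℕ} {H T : Finset α} (hH : H ∈ F) (hT : res role D1 H L s = T)
    (hV : (Vex role D1 (s + 1) H L : ℝ) ≤ 32 * (3 / 2 : ℝ) ^ (s + 1))
    (hmin : ∀ H' ∈ F, res role D1 H' L s ⊆ T → Phi role D1 s H L ≤ Phi role D1 s H' L)
    {Hs : Finset α} (hdec : IsDec role D1 F s (relabel role D1 s H T L) Hs) :
    T ⊆ Hs ∧ (∀ x ∈ T, role Hs x = role H x) ∧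
      T ⊆ res role D1 Hs (relabel role D1 s H T L) (s + 1) ∧
      Yw role Hs (res role D1 Hs (relabel role D1 s H T L) (s + 1))
        ≤ 40 * (3 / 2 : ℝ) ^ (s + 1) := by
  classical
  set L' := relabel role D1 s H T L with hL'
  have hL'T : ∀ x ∈ T, L' x + s = role H x + D1 := by
    intro x hx
    simp only [hL', relabel, if_pos hx]
    omega
  have hL'n : ∀ x, x ∉ T → L' x = L x := by
    intro x hx
    simp only [hL', relabel, if_neg hx]
  have hTH : T ⊆ H := by
    rw [← hT]; exact filter_subset _ _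
  have hlt : ∀ x ∈ T, L' x < L x := by
    intro x hx
    have h1 := hL'T x hx
    rw [← hT, mem_res] at hx
    omega
  -- residual sets of `H`
  have hres0 : res role D1 H L' s = ∅ := by
    rw [eq_empty_iff_forall_notMem]
    intro x hx
    rw [mem_res] at hx
    by_cases hxT : x ∈ T
    · have := hL'T x hxT
      omega
    · rw [hL'n x hxT] at hx
      exact hxT (by rw [← hT, mem_res]; exact hx)
  have hresi : ∀ i, s + 1 ≤ i → res role D1 H L' i = res role D1 H L i := by
    intro i hi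
    ext x
    rw [mem_res, mem_res]
    by_cases hxT : x ∈ T
    · have h1 := hL'T x hxT
      have h2 := hlt x hxT
      constructor
      · rintro ⟨h3, h4⟩; exact ⟨h3, by omega⟩
      · rintro ⟨h3, h4⟩; exact ⟨h3, by omega⟩
    · rw [hL'n x hxT]
  have hVeq : Vex role D1 (s + 1) H L' = Vex role D1 (s + 1) H L := by
    unfold Vex
    refine Finset.sup_congr rfl fun i hi => ?_
    rw [mem_Icc] at hi
    rw [hresi i hi.1]
  obtain ⟨hHsF, hHs0, hHsmin⟩ := hdec
  have hVs : Vex role D1 (s + 1) Hs L' ≤ Vex role D1 (s + 1) H L := by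
    rw [← hVeq]; exact hHsmin H hH hres0
  have hVs' : (Vex role D1 (s + 1) Hs L' : ℝ) ≤ (Vex role D1 (s + 1) H L : ℝ) := by
    exact_mod_cast hVs
  -- roles can only increase
  have hrole : ∀ x ∈ T, x ∈ Hs → role H x ≤ role Hs x := by
    intro x hx hxs
    by_contra hcon
    have h1 := hL'T x hx
    have h2 : x ∈ res role D1 Hs L' s := by
      rw [mem_res]; exact ⟨hxs, by omega⟩
    rw [hHs0] at h2
    exact absurd h2 (notMem_empty x)
  have hsubs : res role D1 Hs L s ⊆ T ∩ Hs := by
    intro x hx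
    rw [mem_res] at hx
    rw [mem_inter]
    refine ⟨?_, hx.1⟩
    by_contra hxT
    have h2 : x ∈ res role D1 Hs L' s := by
      rw [mem_res, hL'n x hxT]; exact hx
    rw [hHs0] at h2
    exact absurd h2 (notMem_empty x)
  have hmin' := hmin Hs hHsF (hsubs.trans inter_subset_left)
  -- the increment of the excess
  set B : Finset α := (T ∩ Hs).filter fun x => role H x < role Hs x with hB
  set δ : ℝ := Yw role Hs B with hδ
  have hδ0 : 0 ≤ δ := Yw_nonneg _ _ _
  have hVinc : (Vex role D1 (s + 1) Hs L : ℝ) ≤ (Vex role D1 (s + 1) Hs L' : ℝ) + δ := by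
    rw [Vex_le_iff (by positivity)]
    intro i hi
    have h0 : Yw role Hs (res role D1 Hs L' i) ≤
        bnd (s + 1) i + (Vex role D1 (s + 1) Hs L' : ℝ) :=
      (Vex_le_iff (NNReal.coe_nonneg _)).1 le_rfl i hi
    rw [mem_Icc] at hi
    have h1 : res role D1 Hs L i ⊆ res role D1 Hs L' i ∪ B := by
      intro x hx
      rw [mem_union]
      by_cases hx' : x ∈ res role D1 Hs L' i
      · exact Or.inl hx'
      · right
        rw [mem_res] at hx hx'
        rw [hB, mem_filter, mem_inter]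
        have hxT : x ∈ T := by
          by_contra hxT
          rw [hL'n x hxT] at hx'
          exact hx' hx
        have h3 := hL'T x hxT
        have h4 : ¬ (role Hs x + D1 < L' x + i) := fun h => hx' ⟨hx.1, h⟩
        exact ⟨⟨hxT, hx.1⟩, by omega⟩
    have h2 : Yw role Hs (res role D1 Hs L i) ≤ Yw role Hs (res role D1 Hs L' i) + δ := by
      refine (Yw_mono role Hs h1).trans ?_
      unfold Yw at hδ ⊢
      rw [hδ, ← sum_union_inter]
      have : 0 ≤ ∑ x ∈ res role D1 Hs L' i ∩ B, (3 / 4 : ℝ) ^ role Hs x :=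
        sum_nonneg fun _ _ => by positivity
      linarith
    linarith
  -- main comparison
  have hkey : ∑ x ∈ T, (3 / 4 : ℝ) ^ role H x ≤ ∑ x ∈ T, (if x ∈ Hs then
      (if role H x < role Hs x then (15 / 16) * (3 / 4 : ℝ) ^ role H x
        else (3 / 4 : ℝ) ^ role H x) else 0) := by
    have h1 : Yw role Hs (res role D1 Hs L s) ≤ Yw role Hs (T ∩ Hs) := Yw_mono role Hs hsubs
    have h2 : Yw role H T + (1 / 4) * (Vex role D1 (s + 1) H L : ℝ)
        ≤ Yw role Hs (T ∩ Hs) + (1 / 4) * ((Vex role D1 (s + 1) H L : ℝ) + δ) := by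
      have := hmin'
      unfold Phi at this
      rw [hT] at this
      linarith
    have h3 : Yw role H T ≤ Yw role Hs (T ∩ Hs) + (1 / 4) * δ := by linarith
    have h4 : Yw role Hs (T ∩ Hs) + (1 / 4) * δ ≤ ∑ x ∈ T, (if x ∈ Hs then
      (if role H x < role Hs x then (15 / 16) * (3 / 4 : ℝ) ^ role H x
        else (3 / 4 : ℝ) ^ role H x) else 0) := by
      rw [hδ, hB]
      unfold Yw
      rw [← filter_mem_eq_inter, sum_filter, sum_filter, sum_filter, mul_sum, ← sum_add_distrib]
      refine sum_le_sum fun x hx => ?_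
      by_cases hxs : x ∈ Hs
      · simp only [if_pos hxs]
        by_cases hlt' : role H x < role Hs x
        · simp only [if_pos hlt']
          have h5 : (3 / 4 : ℝ) ^ role Hs x ≤ (3 / 4 : ℝ) ^ (role H x + 1) :=
            pow_le_pow_of_le_one (by norm_num) (by norm_num) hlt'
          rw [pow_succ] at h5
          linarith
        · simp only [if_neg hlt']
          have h5 : role Hs x = role H x := le_antisymm (not_lt.1 hlt') (hrole x hx hxs)
          rw [h5]; simp
      · simp only [if_neg hxs]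
        simp
    unfold Yw at h3
    exact h3.trans h4
  have hpt : ∀ x ∈ T, (if x ∈ Hs then
      (if role H x < role Hs x then (15 / 16) * (3 / 4 : ℝ) ^ role H x
        else (3 / 4 : ℝ) ^ role H x) else 0) ≤ (3 / 4 : ℝ) ^ role H x := by
    intro x _
    have : (0 : ℝ) < (3 / 4 : ℝ) ^ role H x := by positivity
    split_ifs <;> linarith
  have heq := (sum_eq_sum_iff_of_le hpt).1 (le_antisymm (sum_le_sum hpt) hkey)
  have hTHs : T ⊆ Hs := by
    intro x hx
    by_contra hxs
    have := heq x hx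
    rw [if_neg hxs] at this
    have h1 : (0 : ℝ) < (3 / 4 : ℝ) ^ role H x := by positivity
    linarith
  have hroles : ∀ x ∈ T, role Hs x = role H x := by
    intro x hx
    have h1 := heq x hx
    rw [if_pos (hTHs hx)] at h1
    have h2 : (0 : ℝ) < (3 / 4 : ℝ) ^ role H x := by positivity
    by_contra hne
    have h3 : role H x < role Hs x := lt_of_le_of_ne (hrole x hx (hTHs hx)) (Ne.symm hne)
    rw [if_pos h3] at h1
    linarith
  refine ⟨hTHs, hroles, ?_, ?_⟩
  · intro x hx
    rw [mem_res]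
    refine ⟨hTHs hx, ?_⟩
    rw [hroles x hx]
    have := hL'T x hx
    omega
  · have h0 : Yw role Hs (res role D1 Hs L' (s + 1)) ≤
        bnd (s + 1) (s + 1) + (Vex role D1 (s + 1) Hs L' : ℝ) :=
      (Vex_le_iff (NNReal.coe_nonneg _)).1 le_rfl (s + 1) (by rw [mem_Icc]; omega)
    unfold bnd at h0
    linarith

end Decode

end Vale.Agent.P034
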