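import Vale.Agent.Lib.P034.Role

set_option linter.unusedSectionVars false

namespace Vale.Agent.P034

open Finset

section Final

variable {α : Type*} [DecidableEq α]

/-- `∑ x, w x * e x` over the elements of a fixed role -/
theorem role_sum_bound (H : Finset α) (r : α → ℕ) (L : α → ℕ) (D : ℕ)
    (h0 : ∀ x ∈ H, L x ≤ r x + (D + 1))
    (hY : ∀ i ∈ Finset.Icc 1 (D + 1),
      ∑ x ∈ H.filter (fun x => r x + (D + 1) < L x + i), (3 / 4 : ℝ) ^ r x
        ≤ 104 * (3 / 2 : ℝ) ^ i) (k : ℕ) (hk : k ≤ D) :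
    ∑ x ∈ H.filter (fun x => r x = k), ((L x - D : ℕ) : ℝ) ≤ 468 * 2 ^ k := by
  have h1 : ∀ x ∈ H.filter (fun x => r x = k), ((L x - D : ℕ) : ℝ)
      = ∑ t ∈ range (k + 1), if t < L x - D then (1 : ℝ) else 0 := by
    intro x hx
    rw [mem_filter] at hx
    have h2 := h0 x hx.1
    rw [← sum_filter, sum_const, nsmul_eq_mul, mul_one]
    have h3 : (range (k + 1)).filter (fun t => t < L x - D) = range (L x - D) := by
      ext t
      simp only [mem_filter, mem_range]
      constructor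
      · rintro ⟨_, h⟩; exact h
      · intro h; exact ⟨by omega, h⟩
    rw [h3, card_range]
  rw [sum_congr rfl h1, sum_comm]
  have h4 : ∀ t ∈ range (k + 1), ∑ x ∈ H.filter (fun x => r x = k),
      (if t < L x - D then (1 : ℝ) else 0) ≤ 156 * 2 ^ k * (2 / 3 : ℝ) ^ t := by
    intro t ht
    rw [mem_range] at ht
    have h5 := hY (k - t + 1) (by rw [mem_Icc]; omega)
    rw [← sum_filter, sum_const, nsmul_eq_mul, mul_one]
    have h6 : (((H.filter (fun x => r x = k)).filter (fun x => t < L x - D)).card : ℝ)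
        * (3 / 4 : ℝ) ^ k ≤ 104 * (3 / 2 : ℝ) ^ (k - t + 1) := by
      refine le_trans ?_ h5
      rw [← nsmul_eq_mul, ← sum_const]
      have h7 : ∑ x ∈ (H.filter (fun x => r x = k)).filter (fun x => t < L x - D),
          (3 / 4 : ℝ) ^ k = ∑ x ∈ (H.filter (fun x => r x = k)).filter (fun x => t < L x - D),
          (3 / 4 : ℝ) ^ r x := by
        refine sum_congr rfl fun x hx => ?_
        rw [mem_filter, mem_filter] at hx
        rw [hx.1.2]
      rw [h7]
      refine sum_le_sum_of_subset_of_nonneg ?_ fun _ _ _ => by positivity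
      intro x hx
      rw [mem_filter, mem_filter] at hx
      rw [mem_filter]
      refine ⟨hx.1.1, ?_⟩
      have := hx.1.2
      omega
    have h8 : (0 : ℝ) < (3 / 4 : ℝ) ^ k := by positivity
    have h9 : (3 / 2 : ℝ) ^ k = 2 ^ k * (3 / 4 : ℝ) ^ k := by
      rw [← mul_pow]; norm_num
    have h10 : (3 / 2 : ℝ) ^ (k - t + 1) = (3 / 2) * (3 / 2 : ℝ) ^ k * (2 / 3 : ℝ) ^ t := by
      have h11 : (3 / 2 : ℝ) ^ k = (3 / 2 : ℝ) ^ (k - t) * (3 / 2 : ℝ) ^ t := by
        rw [← pow_add]; congr 1; omega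
      have h12 : (3 / 2 : ℝ) ^ t * (2 / 3 : ℝ) ^ t = 1 := by
        rw [← mul_pow]; norm_num
      rw [h11, pow_succ]
      calc (3 / 2 : ℝ) ^ (k - t) * (3 / 2) = (3 / 2 : ℝ) ^ (k - t) * (3 / 2) * 1 := by ring
        _ = (3 / 2 : ℝ) ^ (k - t) * (3 / 2) * ((3 / 2 : ℝ) ^ t * (2 / 3 : ℝ) ^ t) := by rw [h12]
        _ = _ := by ring
    rw [h10, h9] at h6
    have h13 : (((H.filter (fun x => r x = k)).filter (fun x => t < L x - D)).card : ℝ)
        * (3 / 4 : ℝ) ^ k ≤ (156 * 2 ^ k * (2 / 3 : ℝ) ^ t) * (3 / 4 : ℝ) ^ k := by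
      refine h6.trans (le_of_eq ?_)
      ring
    exact le_of_mul_le_mul_right h13 h8
  refine (sum_le_sum h4).trans ?_
  rw [← mul_sum, geom_sum_eq (by norm_num)]
  have h5 : (0 : ℝ) < (2 / 3 : ℝ) ^ (k + 1) := by positivity
  have h6 : (0 : ℝ) < 2 ^ k := by positivity
  have h7 : ((2 / 3 : ℝ) ^ (k + 1) - 1) / (2 / 3 - 1) ≤ 3 := by
    rw [div_le_iff_of_neg (by norm_num)]
    linarith
  calc 156 * 2 ^ k * (((2 / 3 : ℝ) ^ (k + 1) - 1) / (2 / 3 - 1)) ≤ 156 * 2 ^ k * 3 :=
        mul_le_mul_of_nonneg_left h7 (by positivity)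
    _ = 468 * 2 ^ k := by ring

/-- total excess is controlled by the total weight -/
theorem excess_bound (H : Finset α) (w : α → ℝ) (hw : ∀ x, 0 ≤ w x) (r : α → ℕ) (L : α → ℕ)
    (D : ℕ) (hr : ∀ x ∈ H, r x ≤ D)
    (hrole : ∀ x ∈ H, ∀ k, r x = k + 1 → w x * 2 ^ k ≤ ∑ y ∈ H.filter (fun y => r y = k), w y)
    (h0 : ∀ x ∈ H, L x ≤ r x + (D + 1))
    (hY : ∀ i ∈ Finset.Icc 1 (D + 1),
      ∑ x ∈ H.filter (fun x => r x + (D + 1) < L x + i), (3 / 4 : ℝ) ^ r x
        ≤ 104 * (3 / 2 : ℝ) ^ i) :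
    ∑ x ∈ H, w x * ((L x - D : ℕ) : ℝ) ≤ 1000 * ∑ x ∈ H, w x := by
  set W : ℕ → ℝ := fun k => ∑ y ∈ H.filter (fun y => r y = k), w y with hW
  have hW0 : ∀ k, 0 ≤ W k := fun k => sum_nonneg fun _ _ => hw _
  have hmaps : ∀ x ∈ H, r x ∈ range (D + 1) := by
    intro x hx; rw [mem_range]; have := hr x hx; omega
  have e1 : ∑ x ∈ H, w x * ((L x - D : ℕ) : ℝ)
      = ∑ k ∈ range (D + 1), ∑ x ∈ H.filter (fun x => r x = k), w x * ((L x - D : ℕ) : ℝ) :=
    (sum_fiberwise_of_maps_to hmaps _).symm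
  have e2 : ∑ x ∈ H, w x = ∑ k ∈ range (D + 1), W k :=
    (sum_fiberwise_of_maps_to hmaps _).symm
  rw [e1, e2, sum_range_succ']
  have hz : ∑ x ∈ H.filter (fun x => r x = 0), w x * ((L x - D : ℕ) : ℝ) ≤ W 0 := by
    refine sum_le_sum fun x hx => ?_
    rw [mem_filter] at hx
    have h1 := h0 x hx.1
    have h2 : ((L x - D : ℕ) : ℝ) ≤ 1 := by
      have : L x - D ≤ 1 := by omega
      exact_mod_cast this
    have := hw x
    nlinarith
  have hs : ∀ k ∈ range D, ∑ x ∈ H.filter (fun x => r x = k + 1), w x * ((L x - D : ℕ) : ℝ)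
      ≤ 936 * W k := by
    intro k hk
    rw [mem_range] at hk
    have h1 : ∑ x ∈ H.filter (fun x => r x = k + 1), w x * ((L x - D : ℕ) : ℝ)
        ≤ ∑ x ∈ H.filter (fun x => r x = k + 1), (W k / 2 ^ k) * ((L x - D : ℕ) : ℝ) := by
      refine sum_le_sum fun x hx => ?_
      rw [mem_filter] at hx
      refine mul_le_mul_of_nonneg_right ?_ (Nat.cast_nonneg _)
      rw [le_div_iff₀ (by positivity)]
      exact hrole x hx.1 k hx.2
    refine h1.trans ?_
    rw [← mul_sum]
    have h2 := role_sum_bound H r L D h0 hY (k + 1) (by omega)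
    have h3 : 0 ≤ W k / 2 ^ k := div_nonneg (hW0 k) (by positivity)
    refine (mul_le_mul_of_nonneg_left h2 h3).trans (le_of_eq ?_)
    rw [pow_succ]; field_simp; ring
  have h4 : ∑ k ∈ range D, ∑ x ∈ H.filter (fun x => r x = k + 1), w x * ((L x - D : ℕ) : ℝ)
      ≤ ∑ k ∈ range D, 936 * W k := sum_le_sum hs
  rw [← mul_sum] at h4
  have h5 : ∑ k ∈ range D, W k ≤ ∑ k ∈ range (D + 1), W k := by
    rw [sum_range_succ]; linarith [hW0 D]
  have h6 : W 0 ≤ ∑ k ∈ range (D + 1), W k :=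
    single_le_sum (fun k _ => hW0 k) (by rw [mem_range]; omega)
  have h7 := (hW0 0).trans h6
  linarith

/-- the element weights induced by a fractional cover inside `H` -/
noncomputable def lam (g : Finset α → ℝ) (H : Finset α) (x : α) : ℝ :=
  ∑ S ∈ H.powerset.filter (fun S => x ∈ S), g S / (S.card : ℝ)

theorem lam_nonneg {g : Finset α → ℝ} (hg : ∀ S, 0 ≤ g S) (H : Finset α) (x : α) :
    0 ≤ lam g H x := sum_nonneg fun S _ => div_nonneg (hg S) (Nat.cast_nonneg _)

theorem sum_lam_mul (g : Finset α → ℝ) (H : Finset α) (e : α → ℝ) :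
    ∑ x ∈ H, lam g H x * e x = ∑ S ∈ H.powerset, g S / (S.card : ℝ) * ∑ x ∈ S, e x := by
  have h1 : ∀ x ∈ H, lam g H x * e x
      = ∑ S ∈ H.powerset, if x ∈ S then g S / (S.card : ℝ) * e x else 0 := by
    intro x _
    unfold lam
    rw [sum_mul, sum_filter]
  rw [sum_congr rfl h1, sum_comm]
  refine sum_congr rfl fun S hS => ?_
  rw [mem_powerset] at hS
  rw [mul_sum, ← sum_filter]
  refine sum_congr ?_ fun _ _ => rfl
  rw [filter_mem_eq_inter]
  exact inter_eq_right.2 hS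

theorem sum_lam (g : Finset α → ℝ) (H : Finset α) :
    ∑ x ∈ H, lam g H x = ∑ S ∈ H.powerset.filter (fun S => S.Nonempty), g S := by
  have h1 := sum_lam_mul g H (fun _ => 1)
  simp only [mul_one] at h1
  rw [h1, sum_filter]
  refine sum_congr rfl fun S _ => ?_
  rw [sum_const, nsmul_eq_mul, mul_one]
  split_ifs with h
  · have : (S.card : ℝ) ≠ 0 := by exact_mod_cast (card_pos.2 h).ne'
    field_simp
  · rw [not_nonempty_iff_eq_empty] at h
    subst h; simp

/-- the constant of the final functional -/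
noncomputable def kap : ℝ := (8 / 3 : ℝ) ^ 2000

theorem one_le_kap : 1 ≤ kap := one_le_pow₀ (by norm_num)

/-- the discount attached to a label -/
noncomputable def bet (D n : ℕ) : ℝ := (3 / 8 : ℝ) ^ (n - D)

theorem bet_nonneg (D n : ℕ) : 0 ≤ bet D n := by unfold bet; positivity

/-- Markov: half of the fractional mass inside `H` sits on sets of small average excess -/
theorem final_mass (g : Finset α → ℝ) (hg : ∀ S, 0 ≤ g S) (H : Finset α)
    (r : α → ℕ) (L : α → ℕ) (D : ℕ) (hr : ∀ x ∈ H, r x ≤ D)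
    (hrole : ∀ x ∈ H, ∀ k, r x = k + 1 →
      lam g H x * 2 ^ k ≤ ∑ y ∈ H.filter (fun y => r y = k), lam g H y)
    (h0 : ∀ x ∈ H, L x ≤ r x + (D + 1))
    (hY : ∀ i ∈ Finset.Icc 1 (D + 1),
      ∑ x ∈ H.filter (fun x => r x + (D + 1) < L x + i), (3 / 4 : ℝ) ^ r x
        ≤ 104 * (3 / 2 : ℝ) ^ i)
    (hmass : 1 / 2 ≤ ∑ S ∈ H.powerset.filter (fun S => S.Nonempty), g S) :
    1 / 4 ≤ ∑ S ∈ H.powerset.filter (fun S => S.Nonempty),
      g S * ∏ x ∈ S, (kap * bet D (L x)) := by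
  set f0 := ∑ S ∈ H.powerset.filter (fun S => S.Nonempty), g S with hf0
  have h1 := excess_bound H (lam g H) (lam_nonneg hg H) r L D hr hrole h0 hY
  rw [sum_lam, sum_lam_mul] at h1
  set P := H.powerset.filter (fun S => S.Nonempty) with hP
  set good : Finset α → Prop := fun S => ∑ x ∈ S, ((L x - D : ℕ) : ℝ) ≤ 2000 * S.card with hgood
  classical
  have h2 : ∑ S ∈ P.filter (fun S => ¬ good S), 2000 * g S
      ≤ ∑ S ∈ H.powerset, g S / (S.card : ℝ) * ∑ x ∈ S, ((L x - D : ℕ) : ℝ) := by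
    refine (sum_le_sum (g := fun S => g S / (S.card : ℝ) *
      ∑ x ∈ S, ((L x - D : ℕ) : ℝ)) ?_).trans ?_
    · intro S hS
      rw [mem_filter, hP, mem_filter] at hS
      have hc : (0 : ℝ) < S.card := by exact_mod_cast card_pos.2 hS.1.2
      have h3 : 2000 * (S.card : ℝ) ≤ ∑ x ∈ S, ((L x - D : ℕ) : ℝ) := (not_le.1 hS.2).le
      calc 2000 * g S = g S / S.card * (2000 * S.card) := by field_simp
        _ ≤ _ := mul_le_mul_of_nonneg_left h3 (div_nonneg (hg S) hc.le)
    · refine sum_le_sum_of_subset_of_nonneg ?_ fun S _ _ => ?_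
      · exact (filter_subset _ _).trans (filter_subset _ _)
      · exact mul_nonneg (div_nonneg (hg S) (Nat.cast_nonneg _))
          (sum_nonneg fun _ _ => Nat.cast_nonneg _)
  rw [← mul_sum] at h2
  have h3 : ∑ S ∈ P.filter good, g S + ∑ S ∈ P.filter (fun S => ¬ good S), g S = f0 :=
    sum_filter_add_sum_filter_not P good g
  have h4 : 1 / 4 ≤ ∑ S ∈ P.filter good, g S := by linarith
  refine h4.trans ?_
  refine (sum_le_sum (g := fun S => g S * ∏ x ∈ S, (kap * bet D (L x))) ?_).trans ?_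
  · intro S hS
    rw [mem_filter] at hS
    have h5 : (1 : ℝ) ≤ ∏ x ∈ S, (kap * bet D (L x)) := by
      rw [prod_mul_distrib, prod_const]
      unfold bet kap
      rw [prod_pow_eq_pow_sum, ← pow_mul]
      have h6 : ∑ x ∈ S, (L x - D) ≤ 2000 * S.card := by
        have := hS.2
        simp only [hgood] at this
        exact_mod_cast this
      calc (1 : ℝ) = (8 / 3 : ℝ) ^ (2000 * S.card) * (3 / 8 : ℝ) ^ (2000 * S.card) := by
            rw [← mul_pow]; norm_num
        _ ≤ (8 / 3 : ℝ) ^ (2000 * S.card) * (3 / 8 : ℝ) ^ (∑ x ∈ S, (L x - D)) := by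
            refine mul_le_mul_of_nonneg_left ?_ (by positivity)
            exact pow_le_pow_of_le_one (by norm_num) (by norm_num) h6
    have := hg S
    nlinarith
  · refine sum_le_sum_of_subset_of_nonneg (filter_subset _ _) fun S _ _ => ?_
    refine mul_nonneg (hg S) (prod_nonneg fun x _ => ?_)
    exact mul_nonneg (by linarith [one_le_kap]) (bet_nonneg _ _)

/-- label weights: geometric growth up to a top label carrying the rest -/
theorem exists_law (c : ℝ) (hc : 0 < c) (D : ℕ) :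
    ∃ (N : ℕ) (μ : ℕ → ℝ), (∀ n, 0 ≤ μ n) ∧ ∑ n ∈ range (N + 1), μ n = 1 ∧
      (∀ n < N, μ n = c * (3 / 4 : ℝ) ^ D / (3 / 4 : ℝ) ^ n) ∧
      (∀ n ≤ N, μ n ≤ c * (3 / 4 : ℝ) ^ D / (3 / 4 : ℝ) ^ n) := by
  set a : ℕ → ℝ := fun n => c * (3 / 4 : ℝ) ^ D / (3 / 4 : ℝ) ^ n with ha
  have hapos : ∀ n, 0 < a n := fun n => by simp only [ha]; positivity
  have hex : ∃ N, 1 ≤ ∑ n ∈ range (N + 1), a n := by
    have h1 : (1 : ℝ) < 4 / 3 := by norm_num
    obtain ⟨n, hn⟩ := pow_unbounded_of_one_lt (1 / (c * (3 / 4 : ℝ) ^ D)) h1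
    refine ⟨n, ?_⟩
    have h2 : (1 : ℝ) ≤ a n := by
      have h3 : a n = c * (3 / 4 : ℝ) ^ D * (4 / 3 : ℝ) ^ n := by
        simp only [ha]
        rw [div_eq_mul_inv, ← inv_pow]
        norm_num
      rw [h3]
      have h4 : 0 < c * (3 / 4 : ℝ) ^ D := by positivity
      have h5 := mul_lt_mul_of_pos_left hn h4
      rw [mul_one_div_cancel h4.ne'] at h5
      exact h5.le
    exact h2.trans (single_le_sum (fun i _ => (hapos i).le) (by rw [mem_range]; omega))
  classical
  set N := Nat.find hex with hN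
  have hN1 : 1 ≤ ∑ n ∈ range (N + 1), a n := Nat.find_spec hex
  have hN2 : ∑ n ∈ range N, a n ≤ 1 := by
    rcases Nat.eq_zero_or_pos N with h | h
    · rw [h]; simp
    · have := Nat.find_min hex (m := N - 1) (by omega)
      rw [not_le] at this
      have h2 : N - 1 + 1 = N := by omega
      rw [h2] at this
      exact this.le
  refine ⟨N, fun n => if n < N then a n else if n = N then 1 - ∑ n ∈ range N, a n else 0,
    ?_, ?_, ?_, ?_⟩
  · intro n
    beta_reduce
    split_ifs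
    · exact (hapos n).le
    · linarith
    · exact le_rfl
  · rw [sum_range_succ]
    have h1 : ∀ n ∈ range N, (if n < N then a n else
        if n = N then 1 - ∑ n ∈ range N, a n else 0) = a n := by
      intro n hn
      rw [mem_range] at hn
      rw [if_pos hn]
    rw [sum_congr rfl h1, if_neg (lt_irrefl N), if_pos rfl]
    ring
  · intro n hn
    beta_reduce
    rw [if_pos hn]
  · intro n hn
    beta_reduce
    rcases Nat.lt_or_eq_of_le hn with h | h
    · rw [if_pos h]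
    · subst h
      rw [if_neg (lt_irrefl _), if_pos rfl]
      rw [sum_range_succ] at hN1
      have : a N = c * (3 / 4 : ℝ) ^ D / (3 / 4 : ℝ) ^ N := rfl
      linarith

theorem disc_sum (D M : ℕ) :
    ∑ n ∈ range M, (3 / 4 : ℝ) ^ D / (3 / 4 : ℝ) ^ n * bet D n ≤ 5 := by
  have key : (M ≤ D + 1 → ∑ n ∈ range M, (3 / 4 : ℝ) ^ D / (3 / 4 : ℝ) ^ n * bet D n
        ≤ 3 * ((3 / 4 : ℝ) ^ D / (3 / 4 : ℝ) ^ M)) ∧
      (D + 1 ≤ M → ∑ n ∈ range M, (3 / 4 : ℝ) ^ D / (3 / 4 : ℝ) ^ n * bet D n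
        ≤ 5 - (1 / 2 : ℝ) ^ (M - D - 1)) := by
    induction M with
    | zero =>
      refine ⟨fun _ => ?_, fun h => by omega⟩
      simp only [range_zero, sum_empty]
      positivity
    | succ M ih =>
      have hpow : (3 / 4 : ℝ) ^ D / (3 / 4 : ℝ) ^ (M + 1)
          = (4 / 3) * ((3 / 4 : ℝ) ^ D / (3 / 4 : ℝ) ^ M) := by
        rw [pow_succ]; field_simp
      have hA : M + 1 ≤ D + 1 → ∑ n ∈ range (M + 1), (3 / 4 : ℝ) ^ D / (3 / 4 : ℝ) ^ n * bet D n
        ≤ 3 * ((3 / 4 : ℝ) ^ D / (3 / 4 : ℝ) ^ (M + 1)) := by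
        intro h
        rw [sum_range_succ]
        have h1 := ih.1 (by omega)
        have h2 : bet D M = 1 := by
          unfold bet
          have : M - D = 0 := by omega
          rw [this, pow_zero]
        rw [h2, hpow]
        linarith
      refine ⟨hA, ?_⟩
      intro h
      rcases Nat.eq_or_lt_of_le h with h' | h'
      · have h1 := hA (by omega)
        have h2 : (3 / 4 : ℝ) ^ D / (3 / 4 : ℝ) ^ (M + 1) = 4 / 3 := by
          have : M = D := by omega
          rw [this, pow_succ]; field_simp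
        rw [h2] at h1
        have h3 : M + 1 - D - 1 = 0 := by omega
        rw [h3, pow_zero]
        linarith
      · have h1 := ih.2 (by omega)
        rw [sum_range_succ]
        obtain ⟨j, hj⟩ : ∃ j, M = D + 1 + j := ⟨M - D - 1, by omega⟩
        have h2 : (3 / 4 : ℝ) ^ D / (3 / 4 : ℝ) ^ M * bet D M = (1 / 2 : ℝ) ^ (j + 1) := by
          unfold bet
          have h3 : M - D = j + 1 := by omega
          rw [h3]
          have h4 : (3 / 4 : ℝ) ^ M = (3 / 4 : ℝ) ^ D * (3 / 4 : ℝ) ^ (j + 1) := by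
            rw [← pow_add]; congr 1; omega
          rw [h4]
          have h5 : (3 / 8 : ℝ) ^ (j + 1) = (3 / 4 : ℝ) ^ (j + 1) * (1 / 2 : ℝ) ^ (j + 1) := by
            rw [← mul_pow]; norm_num
          rw [h5]
          have h6 : (0 : ℝ) < (3 / 4 : ℝ) ^ D := by positivity
          have h7 : (0 : ℝ) < (3 / 4 : ℝ) ^ (j + 1) := by positivity
          field_simp
        rw [h2]
        have h3 : M - D - 1 = j := by omega
        have h4 : M + 1 - D - 1 = j + 1 := by omega
        rw [h3] at h1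
        rw [h4]
        rw [pow_succ]
        linarith
  rcases le_total M (D + 1) with h | h
  · have h1 := key.1 h
    have h2 : (3 / 4 : ℝ) ^ D / (3 / 4 : ℝ) ^ M ≤ 4 / 3 := by
      rw [div_le_iff₀ (by positivity)]
      have h3 : (3 / 4 : ℝ) ^ (D + 1) ≤ (3 / 4 : ℝ) ^ M :=
        pow_le_pow_of_le_one (by norm_num) (by norm_num) h
      rw [pow_succ] at h3
      linarith
    linarith
  · have h1 := key.2 h
    have h2 : (0 : ℝ) < (1 / 2 : ℝ) ^ (M - D - 1) := by positivity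
    linarith

end Final

end Vale.Agent.P034
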