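import Mathlib

set_option linter.unusedSectionVars false

namespace Vale.Agent.P034

open Finset

section Transfer

variable {α : Type*} [Fintype α] [DecidableEq α]

/-- the finite set of label functions -/
def Om (α : Type*) [Fintype α] [DecidableEq α] (N : ℕ) : Finset (α → ℕ) :=
  Fintype.piFinset fun _ => range (N + 1)

theorem mem_Om {N : ℕ} {L : α → ℕ} : L ∈ Om α N ↔ ∀ x, L x ≤ N := by
  simp [Om, Fintype.mem_piFinset]

/-- product weight of a label function -/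
noncomputable def Pr (μ : ℕ → ℝ) (L : α → ℕ) : ℝ := ∏ x, μ (L x)

theorem fiber_sum (N : ℕ) (μ : ℕ → ℝ) (hμ1 : ∑ n ∈ range (N + 1), μ n = 1)
    (T : Finset α) {L' : α → ℕ} (hL' : L' ∈ Om α N) :
    ∑ L ∈ (Om α N).filter (fun L => ∀ x, x ∉ T → L' x = L x), Pr μ L
      = ∏ x ∈ Tᶜ, μ (L' x) := by
  have h1 : (Om α N).filter (fun L => ∀ x, x ∉ T → L' x = L x)
      = Fintype.piFinset fun x => if x ∈ T then range (N + 1) else {L' x} := by
    ext L
    rw [mem_filter, Om, Fintype.mem_piFinset, Fintype.mem_piFinset]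
    constructor
    · rintro ⟨h2, h3⟩ x
      by_cases hx : x ∈ T
      · rw [if_pos hx]; exact h2 x
      · rw [if_neg hx, mem_singleton]; exact (h3 x hx).symm
    · intro h2
      refine ⟨fun x => ?_, fun x hx => ?_⟩
      · have := h2 x
        by_cases hx : x ∈ T
        · rw [if_pos hx] at this; exact this
        · rw [if_neg hx, mem_singleton] at this
          rw [this, mem_range]
          have := mem_Om.1 hL' x
          omega
      · have := h2 x
        rw [if_neg hx, mem_singleton] at this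
        exact this.symm
  rw [h1]
  unfold Pr
  rw [← prod_univ_sum]
  have h2 : ∀ x, ∑ n ∈ (if x ∈ T then range (N + 1) else {L' x}), μ n
      = if x ∈ T then 1 else μ (L' x) := by
    intro x
    split_ifs
    · exact hμ1
    · rw [sum_singleton]
  rw [prod_congr rfl fun x _ => h2 x, ← prod_mul_prod_compl T]
  rw [prod_congr rfl (g := fun _ => (1 : ℝ)) (fun x hx => if_pos hx), prod_const_one, one_mul]
  exact prod_congr rfl fun x hx => if_neg (mem_compl.1 hx)

theorem sum_Pr (N : ℕ) (μ : ℕ → ℝ) (hμ1 : ∑ n ∈ range (N + 1), μ n = 1) :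
    ∑ L ∈ Om α N, Pr μ L = 1 := by
  unfold Pr Om
  rw [← prod_univ_sum]
  simp [hμ1]

theorem transfer (N : ℕ) (μ : ℕ → ℝ) (hμ : ∀ n, 0 ≤ μ n)
    (hμ1 : ∑ n ∈ range (N + 1), μ n = 1) (q : ℝ) (hq : 0 ≤ q)
    (U W : (α → ℕ) → Finset (Finset α)) (m : (α → ℕ) → α → ℝ) (hm : ∀ L x, 0 ≤ m L x)
    (h : ∀ L ∈ Om α N, ∀ T ∈ U L, ∃ L' ∈ Om α N, (∀ x, x ∉ T → L' x = L x) ∧ T ∈ W L' ∧
      ∀ x ∈ T, q ≤ μ (L' x) * m L' x) :
    ∑ L ∈ Om α N, Pr μ L * ∑ T ∈ U L, q ^ T.card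
      ≤ ∑ L ∈ Om α N, Pr μ L * ∑ T ∈ W L, ∏ x ∈ T, m L x := by
  classical
  have hPr : ∀ L : α → ℕ, 0 ≤ Pr μ L := fun L => prod_nonneg fun x _ => hμ _
  -- expand both sides over all `T`
  have e1 : ∑ L ∈ Om α N, Pr μ L * ∑ T ∈ U L, q ^ T.card
      = ∑ T : Finset α, ∑ L ∈ Om α N, if T ∈ U L then Pr μ L * q ^ T.card else 0 := by
    rw [sum_comm]
    refine sum_congr rfl fun L _ => ?_
    rw [mul_sum, ← sum_filter]
    refine sum_congr ?_ fun _ _ => rfl
    ext T; simp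
  have e2 : ∑ L ∈ Om α N, Pr μ L * ∑ T ∈ W L, ∏ x ∈ T, m L x
      = ∑ T : Finset α, ∑ L ∈ Om α N, if T ∈ W L then Pr μ L * ∏ x ∈ T, m L x else 0 := by
    rw [sum_comm]
    refine sum_congr rfl fun L _ => ?_
    rw [mul_sum, ← sum_filter]
    refine sum_congr ?_ fun _ _ => rfl
    ext T; simp
  rw [e1, e2]
  refine sum_le_sum fun T _ => ?_
  -- bound each term on the left by a sum over the possible `L'`
  have h1 : ∀ L ∈ Om α N, (if T ∈ U L then Pr μ L * q ^ T.card else 0)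
      ≤ ∑ L' ∈ Om α N, if (∀ x, x ∉ T → L' x = L x) ∧ T ∈ W L' ∧
          (∀ x ∈ T, q ≤ μ (L' x) * m L' x) then Pr μ L * q ^ T.card else 0 := by
    intro L hL
    have hnn : ∀ L' ∈ Om α N, (0 : ℝ) ≤ if (∀ x, x ∉ T → L' x = L x) ∧ T ∈ W L' ∧
          (∀ x ∈ T, q ≤ μ (L' x) * m L' x) then Pr μ L * q ^ T.card else 0 := by
      intro L' _
      split_ifs
      · exact mul_nonneg (hPr L) (pow_nonneg hq _)
      · exact le_rfl
    by_cases hT : T ∈ U L
    · rw [if_pos hT]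
      obtain ⟨L', hL', h2, h3, h4⟩ := h L hL T hT
      refine le_trans (le_of_eq ?_) (single_le_sum hnn hL')
      rw [if_pos ⟨h2, h3, h4⟩]
    · rw [if_neg hT]
      exact sum_nonneg hnn
  refine (sum_le_sum h1).trans ?_
  rw [sum_comm]
  refine sum_le_sum fun L' hL' => ?_
  by_cases hW : T ∈ W L'
  · rw [if_pos hW]
    by_cases hc : ∀ x ∈ T, q ≤ μ (L' x) * m L' x
    · have h2 : ∑ L ∈ Om α N, (if (∀ x, x ∉ T → L' x = L x) ∧ T ∈ W L' ∧
          (∀ x ∈ T, q ≤ μ (L' x) * m L' x) then Pr μ L * q ^ T.card else 0)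
          = (∏ x ∈ Tᶜ, μ (L' x)) * q ^ T.card := by
        rw [← fiber_sum N μ hμ1 T hL', sum_filter, sum_mul]
        refine sum_congr rfl fun L _ => ?_
        by_cases h3 : ∀ x, x ∉ T → L' x = L x
        · rw [if_pos ⟨h3, hW, hc⟩, if_pos h3]
        · rw [if_neg (fun h => h3 h.1), if_neg h3, zero_mul]
      rw [h2]
      have h3 : q ^ T.card ≤ ∏ x ∈ T, (μ (L' x) * m L' x) := by
        rw [← prod_const]
        exact prod_le_prod (fun _ _ => hq) hc
      have h4 : Pr μ L' = (∏ x ∈ T, μ (L' x)) * ∏ x ∈ Tᶜ, μ (L' x) := by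
        unfold Pr; rw [prod_mul_prod_compl]
      rw [h4]
      calc (∏ x ∈ Tᶜ, μ (L' x)) * q ^ T.card
          ≤ (∏ x ∈ Tᶜ, μ (L' x)) * ∏ x ∈ T, (μ (L' x) * m L' x) :=
            mul_le_mul_of_nonneg_left h3 (prod_nonneg fun x _ => hμ _)
        _ = _ := by rw [prod_mul_distrib]; ring
    · have h2 : ∑ L ∈ Om α N, (if (∀ x, x ∉ T → L' x = L x) ∧ T ∈ W L' ∧
          (∀ x ∈ T, q ≤ μ (L' x) * m L' x) then Pr μ L * q ^ T.card else 0) = 0 := by
        refine sum_eq_zero fun L _ => ?_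
        rw [if_neg (fun h => hc h.2.2)]
      rw [h2]
      exact mul_nonneg (hPr L') (prod_nonneg fun x _ => hm L' x)
  · rw [if_neg hW]
    refine le_of_eq (sum_eq_zero fun L _ => ?_)
    rw [if_neg (fun h => hW h.2.1)]

/-- expectation of a product over a set of coordinates -/
theorem sum_Pr_prod (N : ℕ) (μ : ℕ → ℝ) (hμ1 : ∑ n ∈ range (N + 1), μ n = 1)
    (S : Finset α) (b : ℕ → ℝ) :
    ∑ L ∈ Om α N, Pr μ L * ∏ x ∈ S, b (L x)
      = (∑ n ∈ range (N + 1), μ n * b n) ^ S.card := by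
  have h1 : ∀ L : α → ℕ, Pr μ L * ∏ x ∈ S, b (L x)
      = ∏ x, (μ (L x) * if x ∈ S then b (L x) else 1) := by
    intro L
    unfold Pr
    rw [prod_mul_distrib]
    congr 1
    rw [prod_ite_mem, univ_inter]
  rw [sum_congr rfl fun L _ => h1 L]
  unfold Om
  rw [← prod_univ_sum (fun _ : α => range (N + 1))
    (fun x n => μ n * if x ∈ S then b n else 1), ← prod_mul_prod_compl S]
  have h2 : ∀ x ∈ S, ∑ n ∈ range (N + 1), (μ n * if x ∈ S then b n else 1)
      = ∑ n ∈ range (N + 1), μ n * b n := by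
    intro x hx
    simp only [if_pos hx]
  have h3 : ∀ x ∈ Sᶜ, ∑ n ∈ range (N + 1), (μ n * if x ∈ S then b n else 1) = 1 := by
    intro x hx
    simp only [if_neg (mem_compl.1 hx), mul_one]
    exact hμ1
  rw [prod_congr rfl h2, prod_congr rfl h3, prod_const_one, mul_one, prod_const]

end Transfer

end Vale.Agent.P034
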