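import Vale.Agent.Lib.P034.Final
import Vale.Agent.Lib.P034.Transfer

set_option linter.unusedSectionVars false

namespace Vale.Agent.P034

open Finset

section Main

variable {α : Type*} [Fintype α] [DecidableEq α]

open Classical in
/-- the output family of stage `s` -/
noncomputable def Us (role : Finset α → α → ℕ) (D1 : ℕ) (F : Finset (Finset α)) (s : ℕ)
    (L : α → ℕ) : Finset (Finset α) :=
  univ.filter fun T => Out role D1 F s L T

open Classical in
/-- the decoder -/
noncomputable def dec (role : Finset α → α → ℕ) (D1 : ℕ) (F : Finset (Finset α)) (s : ℕ)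
    (L : α → ℕ) : Finset α :=
  if h : ∃ Hs, IsDec role D1 F s L Hs then h.choose else ∅

open Classical in
/-- the decoded family of stage `s` -/
noncomputable def Ws (role : Finset α → α → ℕ) (D1 : ℕ) (F : Finset (Finset α)) (s : ℕ)
    (L : α → ℕ) : Finset (Finset α) :=
  if Yw role (dec role D1 F s L) (res role D1 (dec role D1 F s L) L (s + 1))
      ≤ 40 * (3 / 2 : ℝ) ^ (s + 1) then
    (res role D1 (dec role D1 F s L) L (s + 1)).powerset.filter
      (IsBad role s (dec role D1 F s L))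
  else ∅

theorem mem_Us {role : Finset α → α → ℕ} {D1 : ℕ} {F : Finset (Finset α)} {s : ℕ}
    {L : α → ℕ} {T : Finset α} : T ∈ Us role D1 F s L ↔ Out role D1 F s L T := by
  simp [Us]

theorem costBd_nonneg (s : ℕ) : 0 ≤ costBd s := by
  unfold costBd; split_ifs <;> positivity

theorem sum_biUnion_le' {ι β : Type*} [DecidableEq ι] [DecidableEq β] (s : Finset ι)
    (t : ι → Finset β) (f : β → ℝ) (hf : ∀ b, 0 ≤ f b) :
    ∑ b ∈ s.biUnion t, f b ≤ ∑ i ∈ s, ∑ b ∈ t i, f b := by
  induction s using Finset.induction_on with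
  | empty => simp
  | insert i s hi ih =>
    rw [biUnion_insert, sum_insert hi]
    have h1 := sum_union_inter (s₁ := t i) (s₂ := s.biUnion t) (f := f)
    have h2 : 0 ≤ ∑ b ∈ t i ∩ s.biUnion t, f b := sum_nonneg fun _ _ => hf _
    linarith

/-- expected cost of one stage -/
theorem stage_expect (role : Finset α → α → ℕ) (D : ℕ) (F : Finset (Finset α))
    (hcount : ∀ (H : Finset α) (k : ℕ), ((H.filter fun x => role H x = k).card : ℝ) ≤ 2 ^ k)
    (N : ℕ) (μ : ℕ → ℝ) (hμ : ∀ n, 0 ≤ μ n) (hμ1 : ∑ n ∈ range (N + 1), μ n = 1)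
    (q : ℝ) (hq : 0 ≤ q)
    (hμq : ∀ n < N, μ n = 1024 * q * (3 / 4 : ℝ) ^ D / (3 / 4 : ℝ) ^ n)
    (s : ℕ) (hs : s < D + 1) :
    ∑ L ∈ Om α N, Pr μ L * ∑ T ∈ Us role (D + 1) F s L, q ^ T.card ≤ costBd s := by
  classical
  have h1 : ∑ L ∈ Om α N, Pr μ L * ∑ T ∈ Us role (D + 1) F s L, q ^ T.card
      ≤ ∑ L ∈ Om α N, Pr μ L * ∑ T ∈ Ws role (D + 1) F s L,
          ∏ x ∈ T, mw s (role (dec role (D + 1) F s L) x) := by
    refine transfer N μ hμ hμ1 q hq (Us role (D + 1) F s) (Ws role (D + 1) F s)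
      (fun L x => mw s (role (dec role (D + 1) F s L) x)) (fun L x => mw_nonneg _ _) ?_
    intro L hL T hT
    rw [mem_Us] at hT
    obtain ⟨H, hH, hres, hbad, hV, hmin⟩ := hT
    set L' := relabel role (D + 1) s H T L with hL'
    have hL'T : ∀ x ∈ T, L' x + s = role H x + (D + 1) := by
      intro x hx
      simp only [hL', relabel, if_pos hx]
      omega
    have hL'n : ∀ x, x ∉ T → L' x = L x := by
      intro x hx
      simp only [hL', relabel, if_neg hx]
    have hlt : ∀ x ∈ T, L' x < L x := by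
      intro x hx
      have h1 := hL'T x hx
      rw [← hres, mem_res] at hx
      omega
    have hL'Om : L' ∈ Om α N := by
      rw [mem_Om]
      intro x
      have h2 := mem_Om.1 hL x
      by_cases hx : x ∈ T
      · have := hlt x hx; omega
      · rw [hL'n x hx]; exact h2
    have hres0 : res role (D + 1) H L' s = ∅ := by
      rw [eq_empty_iff_forall_notMem]
      intro x hx
      rw [mem_res] at hx
      by_cases hxT : x ∈ T
      · have := hL'T x hxT
        omega
      · rw [hL'n x hxT] at hx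
        exact hxT (by rw [← hres, mem_res]; exact hx)
    have hex : ∃ Hs, IsDec role (D + 1) F s L' Hs := exists_isDec hH hres0
    have hdec : IsDec role (D + 1) F s L' (dec role (D + 1) F s L') := by
      unfold dec
      rw [dif_pos hex]
      exact hex.choose_spec
    obtain ⟨g1, g2, g3, g4⟩ := decode hs hH hres hV hmin hdec
    rw [← hL'] at g3 g4
    refine ⟨L', hL'Om, hL'n, ?_, ?_⟩
    · unfold Ws
      rw [if_pos g4, mem_filter, mem_powerset]
      refine ⟨g3, ?_⟩
      rcases hbad with ⟨b1, b2⟩ | ⟨b1, b2⟩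
      · exact Or.inl ⟨b1, b2⟩
      · right
        refine ⟨b1, ?_⟩
        have : Yw role (dec role (D + 1) F s L') T = Yw role H T := by
          unfold Yw
          exact sum_congr rfl fun x hx => by rw [g2 x hx]
        rw [this]; exact b2
    · intro x hx
      have h2 : L' x < N := lt_of_lt_of_le (hlt x hx) (mem_Om.1 hL x)
      rw [hμq _ h2, g2 x hx]
      unfold mw
      have h3 : (3 / 4 : ℝ) ^ L' x * (3 / 4 : ℝ) ^ s
          = (3 / 4 : ℝ) ^ D * (3 / 4 : ℝ) ^ (role H x + 1) := by
        rw [← pow_add, ← pow_add, hL'T x hx]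
        congr 1; omega
      have h4 : 1024 * q * (3 / 4 : ℝ) ^ D / (3 / 4 : ℝ) ^ L' x
          * ((1 / 1024) * (3 / 4 : ℝ) ^ (role H x + 1) / (3 / 4 : ℝ) ^ s)
          = q * ((3 / 4 : ℝ) ^ D * (3 / 4 : ℝ) ^ (role H x + 1))
            / ((3 / 4 : ℝ) ^ L' x * (3 / 4 : ℝ) ^ s) := by
        field_simp
      rw [h4, h3]
      rw [mul_div_assoc, div_self (by positivity), mul_one]
  refine h1.trans ?_
  have h2 : ∀ L ∈ Om α N, Pr μ L * ∑ T ∈ Ws role (D + 1) F s L,
          ∏ x ∈ T, mw s (role (dec role (D + 1) F s L) x) ≤ Pr μ L * costBd s := by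
    intro L _
    refine mul_le_mul_of_nonneg_left ?_ (prod_nonneg fun x _ => hμ _)
    unfold Ws
    split_ifs with h
    · exact stage_cost (filter_subset _ _) (hcount _) h
    · rw [sum_empty]; exact costBd_nonneg s
  refine (sum_le_sum h2).trans ?_
  rw [← sum_mul, sum_Pr N μ hμ1, one_mul]

/-- the universal constant -/
noncomputable def bigK : ℝ := 16 * (5 * (1024 * kap))

theorem bigK_pos : 0 < bigK := by
  have := one_le_kap
  unfold bigK; linarith

/-- expectation of the final functional -/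
theorem final_expect (g : Finset α → ℝ) (hg : ∀ S, 0 ≤ g S) (p : ℝ) (hp : 0 < p)
    (hcost : ∑ S, g S * p ^ S.card ≤ 1 / 2) (D N : ℕ) (μ : ℕ → ℝ) (hμ : ∀ n, 0 ≤ μ n)
    (hμ1 : ∑ n ∈ range (N + 1), μ n = 1)
    (hμq : ∀ n ≤ N, μ n ≤ 1024 * (p / bigK) * (3 / 4 : ℝ) ^ D / (3 / 4 : ℝ) ^ n) :
    ∑ L ∈ Om α N, Pr μ L * ∑ S ∈ (univ : Finset (Finset α)).filter (fun S => S.Nonempty),
      g S * ∏ x ∈ S, (kap * bet D (L x)) ≤ 1 / 32 := by
  have hK := bigK_pos
  have hk := one_le_kap
  have e1 : ∑ L ∈ Om α N, Pr μ L * ∑ S ∈ (univ : Finset (Finset α)).filter (fun S => S.Nonempty),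
      g S * ∏ x ∈ S, (kap * bet D (L x))
      = ∑ S ∈ (univ : Finset (Finset α)).filter (fun S => S.Nonempty),
        g S * (∑ n ∈ range (N + 1), μ n * (kap * bet D n)) ^ S.card := by
    have : ∀ L ∈ Om α N, Pr μ L * ∑ S ∈ (univ : Finset (Finset α)).filter (fun S => S.Nonempty),
      g S * ∏ x ∈ S, (kap * bet D (L x)) =
      ∑ S ∈ (univ : Finset (Finset α)).filter (fun S => S.Nonempty),
        g S * (Pr μ L * ∏ x ∈ S, (kap * bet D (L x))) := by
      intro L _
      rw [mul_sum]
      exact sum_congr rfl fun S _ => by ring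
    rw [sum_congr rfl this, sum_comm]
    refine sum_congr rfl fun S _ => ?_
    rw [← mul_sum]
    congr 1
    exact sum_Pr_prod N μ hμ1 S (fun n => kap * bet D n)
  rw [e1]
  set A := ∑ n ∈ range (N + 1), μ n * (kap * bet D n) with hA
  have hA0 : 0 ≤ A := sum_nonneg fun n _ =>
    mul_nonneg (hμ n) (mul_nonneg (by linarith) (bet_nonneg _ _))
  have hA1 : A ≤ p / 16 := by
    have h1 : A ≤ ∑ n ∈ range (N + 1), (1024 * (p / bigK) * kap) *
        ((3 / 4 : ℝ) ^ D / (3 / 4 : ℝ) ^ n * bet D n) := by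
      refine sum_le_sum fun n hn => ?_
      rw [mem_range] at hn
      have h2 := hμq n (by omega)
      have h3 : 0 ≤ kap * bet D n := mul_nonneg (by linarith) (bet_nonneg _ _)
      refine (mul_le_mul_of_nonneg_right h2 h3).trans (le_of_eq ?_)
      ring
    refine h1.trans ?_
    rw [← mul_sum]
    have h2 := disc_sum D (N + 1)
    have h3 : 0 ≤ 1024 * (p / bigK) * kap := by positivity
    refine (mul_le_mul_of_nonneg_left h2 h3).trans (le_of_eq ?_)
    have : kap ≠ 0 := by linarith
    unfold bigK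
    field_simp
  have h1 : ∀ S ∈ (univ : Finset (Finset α)).filter (fun S => S.Nonempty),
      g S * A ^ S.card ≤ (1 / 16) * (g S * p ^ S.card) := by
    intro S hS
    rw [mem_filter] at hS
    have hc : 1 ≤ S.card := card_pos.2 hS.2
    have h2 : A ^ S.card ≤ (p / 16) ^ S.card := pow_le_pow_left₀ hA0 hA1 _
    have h3 : (p / 16) ^ S.card = p ^ S.card * (1 / 16) ^ S.card := by
      rw [← mul_pow]; congr 1; ring
    have h4 : (1 / 16 : ℝ) ^ S.card ≤ (1 / 16) ^ 1 :=
      pow_le_pow_of_le_one (by norm_num) (by norm_num) hc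
    have h5 : 0 ≤ p ^ S.card := by positivity
    have h6 : A ^ S.card ≤ p ^ S.card * (1 / 16) := by
      rw [h3] at h2
      refine h2.trans (mul_le_mul_of_nonneg_left ?_ h5)
      rw [pow_one] at h4; exact h4
    refine (mul_le_mul_of_nonneg_left h6 (hg S)).trans (le_of_eq ?_)
    ring
  refine (sum_le_sum h1).trans ?_
  rw [← mul_sum]
  have h2 : ∑ S ∈ (univ : Finset (Finset α)).filter (fun S => S.Nonempty), g S * p ^ S.card
      ≤ ∑ S, g S * p ^ S.card :=
    sum_le_sum_of_subset_of_nonneg (filter_subset _ _) fun S _ _ =>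
      mul_nonneg (hg S) (by positivity)
  linarith

/-- a fractional cover of cost at most `1/2` at `p` gives an integral cover of cost at most
`1/2` at `p / bigK` -/
theorem frac_to_int (F : Finset (Finset α)) (g : Finset α → ℝ) (hg : ∀ S, 0 ≤ g S)
    (hcov : ∀ H ∈ F, 1 ≤ ∑ S ∈ H.powerset, g S) (p : ℝ) (hp : 0 < p)
    (hcost : ∑ S, g S * p ^ S.card ≤ 1 / 2) :
    ∃ G : Finset (Finset α), (∀ H ∈ F, ∃ S ∈ G, S ⊆ H) ∧
      ∑ S ∈ G, (p / bigK) ^ S.card ≤ 1 / 2 := by
  classical
  have hK := bigK_pos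
  set q : ℝ := p / bigK with hq
  have hqpos : 0 < q := div_pos hp hK
  set D : ℕ := Fintype.card α with hD
  -- roles
  choose role hr1 hr2 hr3 using fun H : Finset α => exists_role H (lam g H)
  obtain ⟨N, μ, hμ0, hμ1, hμ2, hμ3⟩ := exists_law (1024 * q) (by positivity) D
  have hrD : ∀ H, ∀ x ∈ H, role H x ≤ D := by
    intro H x hx
    have h1 := hr3 H x hx
    have h2 : H.card ≤ D := card_le_univ H
    omega
  -- fractional mass of the nonempty sets
  have hmass : ∀ H ∈ F, 1 / 2 ≤ ∑ S ∈ H.powerset.filter (fun S => S.Nonempty), g S := by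
    intro H hH
    have h1 := hcov H hH
    rw [← sum_filter_add_sum_filter_not H.powerset (fun S : Finset α => S.Nonempty)] at h1
    have h2 : H.powerset.filter (fun T => ¬ T.Nonempty) = {∅} := by
      ext T
      simp only [mem_filter, mem_powerset, not_nonempty_iff_eq_empty, mem_singleton]
      constructor
      · rintro ⟨_, h⟩; exact h
      · rintro rfl; exact ⟨empty_subset _, rfl⟩
    rw [h2, sum_singleton] at h1
    have h3 : g ∅ * p ^ (∅ : Finset α).card ≤ ∑ S, g S * p ^ S.card :=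
      single_le_sum (f := fun S : Finset α => g S * p ^ S.card)
        (fun S _ => mul_nonneg (hg S) (by positivity)) (mem_univ _)
    rw [card_empty, pow_zero, mul_one] at h3
    linarith
  set cost : (α → ℕ) → ℝ := fun L => ∑ s ∈ range (D + 1),
    ∑ T ∈ Us role (D + 1) F s L, q ^ T.card with hcostdef
  set fh : (α → ℕ) → ℝ := fun L =>
    ∑ S ∈ (univ : Finset (Finset α)).filter (fun S => S.Nonempty),
      g S * ∏ x ∈ S, (kap * bet D (L x)) with hfh
  have hE1 : ∑ L ∈ Om α N, Pr μ L * cost L ≤ 3 / 50 + 1 / 1000 := by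
    have h1 : ∑ L ∈ Om α N, Pr μ L * cost L
        = ∑ s ∈ range (D + 1), ∑ L ∈ Om α N,
            Pr μ L * ∑ T ∈ Us role (D + 1) F s L, q ^ T.card := by
      rw [sum_comm]
      refine sum_congr rfl fun L _ => ?_
      simp only [hcostdef]
      rw [mul_sum]
    rw [h1]
    refine (sum_le_sum fun s hs => ?_).trans (sum_costBd (D + 1))
    rw [mem_range] at hs
    exact stage_expect role D F hr1 N μ hμ0 hμ1 q hqpos.le hμ2 s hs
  have hE2 : ∑ L ∈ Om α N, Pr μ L * fh L ≤ 1 / 32 :=
    final_expect g hg p hp hcost D N μ hμ0 hμ1 hμ3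
  have hcost0 : ∀ L, 0 ≤ cost L := fun L =>
    sum_nonneg fun s _ => sum_nonneg fun T _ => by positivity
  have hfh0 : ∀ L, 0 ≤ fh L := fun L => sum_nonneg fun S _ =>
    mul_nonneg (hg S) (prod_nonneg fun x _ =>
      mul_nonneg (by linarith [one_le_kap]) (bet_nonneg _ _))
  obtain ⟨L, hL, hLc, hLf⟩ : ∃ L ∈ Om α N, cost L ≤ 1 / 2 ∧ fh L < 1 / 4 := by
    by_contra hcon
    push Not at hcon
    have h1 : ∀ L ∈ Om α N, Pr μ L ≤ 2 * (Pr μ L * cost L) + 4 * (Pr μ L * fh L) := by
      intro L hL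
      have hP : 0 ≤ Pr μ L := prod_nonneg fun x _ => hμ0 _
      have h2 := hcost0 L
      have h3 := hfh0 L
      by_cases hc : cost L ≤ 1 / 2
      · have h4 := hcon L hL hc
        nlinarith [mul_nonneg hP h2, mul_le_mul_of_nonneg_left h4 hP]
      · rw [not_le] at hc
        nlinarith [mul_nonneg hP h3, mul_le_mul_of_nonneg_left hc.le hP]
    have h2 := sum_le_sum h1
    rw [sum_add_distrib, ← mul_sum, ← mul_sum, sum_Pr N μ hμ1] at h2
    linarith
  refine ⟨(range (D + 1)).biUnion fun s => Us role (D + 1) F s L, ?_, ?_⟩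
  · intro H hH
    by_contra hno
    push Not at hno
    have hno' : ∀ s < D + 1, ∀ T, Out role (D + 1) F s L T → ¬ T ⊆ H := by
      intro s hs T hT
      refine hno T ?_
      rw [mem_biUnion]
      exact ⟨s, by rw [mem_range]; exact hs, mem_Us.2 hT⟩
    have hYH : Yw role H H ≤ 8 * (3 / 2 : ℝ) ^ (D + 1) := by
      have h1 := sum_low H (role H) (hr1 H) (D + 1)
      have h2 : H.filter (fun x => role H x < D + 1) = H := by
        refine filter_true_of_mem fun x hx => ?_
        have := hrD H x hx; omega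
      rw [h2] at h1
      unfold Yw
      have : (0 : ℝ) < (3 / 2 : ℝ) ^ (D + 1) := by positivity
      linarith
    obtain ⟨H0, hH0, h0, hY0⟩ := stage_descend (by omega : 0 < D + 1) hH hYH hno'
    have h1 : 1 / 4 ≤ ∑ S ∈ H0.powerset.filter (fun S => S.Nonempty),
        g S * ∏ x ∈ S, (kap * bet D (L x)) := by
      refine final_mass g hg H0 (role H0) L D (hrD H0) (hr2 H0) ?_ ?_ (hmass H0 hH0)
      · intro x hx
        by_contra hcon
        have : x ∈ res role (D + 1) H0 L 0 := by
          rw [mem_res]; exact ⟨hx, by omega⟩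
        rw [h0] at this
        exact absurd this (notMem_empty x)
      · exact hY0
    have h2 : ∑ S ∈ H0.powerset.filter (fun S => S.Nonempty),
        g S * ∏ x ∈ S, (kap * bet D (L x)) ≤ fh L := by
      simp only [hfh]
      refine sum_le_sum_of_subset_of_nonneg ?_ fun S _ _ => ?_
      · intro S hS
        rw [mem_filter] at hS ⊢
        exact ⟨mem_univ _, hS.2⟩
      · exact mul_nonneg (hg S) (prod_nonneg fun x _ =>
          mul_nonneg (by linarith [one_le_kap]) (bet_nonneg _ _))
    linarith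
  · refine le_trans ?_ hLc
    simp only [hcostdef]
    exact sum_biUnion_le' (range (D + 1)) (fun s => Us role (D + 1) F s L)
      (fun T : Finset α => q ^ T.card) (fun T => by positivity)

end Main

end Vale.Agent.P034
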