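import Vale.Agent.Lib.P034.StageCost

set_option linter.unusedSectionVars false

namespace Vale.Agent.P034

open Finset

section Role

variable {α : Type*} [DecidableEq α]

/-- roles: group the elements of `H` by decreasing weight into blocks of sizes `1, 2, 4, …` -/
theorem exists_role (H : Finset α) (w : α → ℝ) :
    ∃ r : α → ℕ, (∀ k, ((H.filter fun x => r x = k).card : ℝ) ≤ 2 ^ k) ∧
      (∀ x ∈ H, ∀ k, r x = k + 1 → w x * 2 ^ k ≤ ∑ y ∈ H.filter (fun y => r y = k), w y) ∧
      (∀ x ∈ H, r x < H.card) := by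
  classical
  set n := H.card with hn
  let e : H ≃ Fin n := H.equivFin
  let f : Fin n → ℝ := fun i => - w (e.symm i : α)
  let ψ : Fin n ≃ H := (Tuple.sort f).trans e.symm
  have hmono : ∀ i j : Fin n, i ≤ j → w (ψ j : α) ≤ w (ψ i : α) := by
    intro i j hij
    have h1 := Tuple.monotone_sort f hij
    simp only [Function.comp, f] at h1
    simp only [ψ, Equiv.trans_apply]
    linarith
  let idx : α → ℕ := fun x => if h : x ∈ H then (ψ.symm ⟨x, h⟩ : Fin n).val else 0
  have hidx : ∀ x (h : x ∈ H), idx x = (ψ.symm ⟨x, h⟩ : Fin n).val := by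
    intro x h; simp only [idx, dif_pos h]
  have hidxψ : ∀ i : Fin n, idx (ψ i : α) = i.val := by
    intro i
    rw [hidx _ (ψ i).2]
    simp
  have hidxlt : ∀ x ∈ H, idx x < n := by
    intro x h; rw [hidx x h]; exact (ψ.symm ⟨x, h⟩).2
  have hinj : ∀ x ∈ H, ∀ y ∈ H, idx x = idx y → x = y := by
    intro x hx y hy h
    rw [hidx x hx, hidx y hy] at h
    have := ψ.symm.injective (Fin.ext h)
    exact congrArg Subtype.val this
  have hmono' : ∀ x ∈ H, ∀ y ∈ H, idx x ≤ idx y → w y ≤ w x := by
    intro x hx y hy h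
    rw [hidx x hx, hidx y hy] at h
    have := hmono (ψ.symm ⟨x, hx⟩) (ψ.symm ⟨y, hy⟩) h
    simpa using this
  refine ⟨fun x => Nat.log 2 (idx x + 1), ?_, ?_, ?_⟩
  · intro k
    have h1 : (H.filter fun x => Nat.log 2 (idx x + 1) = k).card
        ≤ (Finset.Ico (2 ^ k) (2 ^ (k + 1))).card := by
      refine Finset.card_le_card_of_injOn (fun x => idx x + 1) ?_ ?_
      · intro x hx
        rw [Finset.mem_coe, mem_filter] at hx
        rw [Finset.mem_coe, mem_Ico]
        rw [← hx.2]
        exact ⟨Nat.pow_log_le_self 2 (by omega), Nat.lt_pow_succ_log_self (by norm_num) _⟩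
      · intro x hx y hy h
        rw [Finset.mem_coe, mem_filter] at hx hy
        exact hinj x hx.1 y hy.1 (by simpa using h)
    rw [Nat.card_Ico] at h1
    have h2 : 2 ^ (k + 1) - 2 ^ k = 2 ^ k := by rw [pow_succ]; omega
    rw [h2] at h1
    exact_mod_cast h1
  · intro x hx k hk
    have hk' : 2 ^ (k + 1) ≤ idx x + 1 := by
      rw [← hk]; exact Nat.pow_log_le_self 2 (by omega)
    have hxn := hidxlt x hx
    have hcard : 2 ^ k ≤ (H.filter fun y => Nat.log 2 (idx y + 1) = k).card := by
      have h2k : 2 ^ (k + 1) = 2 ^ k + 2 ^ k := by rw [pow_succ]; ring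
      have hpos : 0 < 2 ^ k := by positivity
      let φ : ℕ → α := fun i => if h : 2 ^ k - 1 + i < n then (ψ ⟨2 ^ k - 1 + i, h⟩ : α) else x
      have hφ : ∀ i, i < 2 ^ k → ∃ h : 2 ^ k - 1 + i < n,
          φ i = (ψ ⟨2 ^ k - 1 + i, h⟩ : α) := by
        intro i hi
        have h : 2 ^ k - 1 + i < n := by omega
        exact ⟨h, by simp only [φ, dif_pos h]⟩
      have h1 : (range (2 ^ k)).card ≤ (H.filter fun y => Nat.log 2 (idx y + 1) = k).card := by
        refine Finset.card_le_card_of_injOn φ ?_ ?_
        · intro i hi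
          rw [Finset.mem_coe, mem_range] at hi
          obtain ⟨h, hφi⟩ := hφ i hi
          rw [Finset.mem_coe, mem_filter, hφi]
          refine ⟨(ψ _).2, ?_⟩
          rw [hidxψ]
          simp only
          rw [Nat.log_eq_iff (Or.inr ⟨by norm_num, by omega⟩)]
          omega
        · intro i hi j hj hij
          rw [Finset.mem_coe, mem_range] at hi hj
          obtain ⟨h, hφi⟩ := hφ i hi
          obtain ⟨h', hφj⟩ := hφ j hj
          have h2 : idx (φ i) = idx (φ j) := by rw [hij]
          rw [hφi, hφj, hidxψ, hidxψ] at h2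
          simp only at h2
          omega
      rwa [card_range] at h1
    have hle : ∀ y ∈ H.filter (fun y => Nat.log 2 (idx y + 1) = k), w x ≤ w y := by
      intro y hy
      rw [mem_filter] at hy
      refine hmono' y hy.1 x hx ?_
      have h1 : idx y + 1 < 2 ^ (k + 1) := by
        rw [← hy.2]; exact Nat.lt_pow_succ_log_self (by norm_num) _
      omega
    by_cases hw : 0 ≤ w x
    · have h3 := card_nsmul_le_sum _ _ _ hle
      rw [nsmul_eq_mul] at h3
      refine le_trans ?_ h3
      rw [mul_comm]
      refine mul_le_mul_of_nonneg_right ?_ hw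
      exact_mod_cast hcard
    · -- negative weights: use exactly `2 ^ k` elements
      have hcard' : (H.filter fun y => Nat.log 2 (idx y + 1) = k).card ≤ 2 ^ k := by
        have h1 : (H.filter fun x => Nat.log 2 (idx x + 1) = k).card
            ≤ (Finset.Ico (2 ^ k) (2 ^ (k + 1))).card := by
          refine Finset.card_le_card_of_injOn (fun x => idx x + 1) ?_ ?_
          · intro x hx
            rw [Finset.mem_coe, mem_filter] at hx
            rw [Finset.mem_coe, mem_Ico]
            rw [← hx.2]
            exact ⟨Nat.pow_log_le_self 2 (by omega), Nat.lt_pow_succ_log_self (by norm_num) _⟩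
          · intro x hx y hy h
            rw [Finset.mem_coe, mem_filter] at hx hy
            exact hinj x hx.1 y hy.1 (by simpa using h)
        rw [Nat.card_Ico] at h1
        have h2 : 2 ^ (k + 1) - 2 ^ k = 2 ^ k := by rw [pow_succ]; omega
        rwa [h2] at h1
      have h3 := card_nsmul_le_sum _ _ _ hle
      rw [nsmul_eq_mul, le_antisymm hcard' hcard] at h3
      rw [mul_comm]
      exact_mod_cast h3
  · intro x hx
    have h1 : 2 ^ (Nat.log 2 (idx x + 1)) ≤ idx x + 1 := Nat.pow_log_le_self 2 (by omega)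
    have h2 := hidxlt x hx
    have h3 : Nat.log 2 (idx x + 1) < 2 ^ (Nat.log 2 (idx x + 1)) := Nat.lt_two_pow_self
    show Nat.log 2 (idx x + 1) < n
    omega

end Role

end Vale.Agent.P034
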