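import Vale.Agent.Lib.P034.Decode

set_option linter.unusedSectionVars false

namespace Vale.Agent.P034

open Finset
open scoped NNReal

section Stage

variable {α : Type*} [DecidableEq α]

/-- one stage, going from level `s + 1` down to level `s` -/
theorem stage_step {role : Finset α → α → ℕ} {D1 : ℕ} {F : Finset (Finset α)} {s : ℕ}
    (hs : s < D1) {L : α → ℕ} {H H0 : Finset α} (hH0 : H0 ∈ F)
    (hsub : res role D1 H0 L (s + 1) ⊆ H)
    (hb : ∀ i ∈ Finset.Icc (s + 1) D1, Yw role H0 (res role D1 H0 L i) ≤ bnd (s + 1) i)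
    (hno : ∀ T, Out role D1 F s L T → ¬ T ⊆ H) :
    ∃ H' ∈ F, res role D1 H' L s ⊆ H ∧ ¬ IsBad role s H' (res role D1 H' L s) ∧
      ∀ i ∈ Finset.Icc (s + 1) D1,
        Yw role H' (res role D1 H' L i) ≤ bnd (s + 1) i + 32 * (3 / 2 : ℝ) ^ (s + 1) := by
  have h0 : H0 ∈ F.filter fun H'' => res role D1 H'' L s ⊆ H := by
    rw [mem_filter]
    exact ⟨hH0, (res_mono role D1 H0 L (Nat.le_succ s)).trans hsub⟩
  obtain ⟨H', hH', hmin⟩ := (F.filter fun H'' => res role D1 H'' L s ⊆ H).exists_min_image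
    (fun H'' => Phi role D1 s H'' L) ⟨H0, h0⟩
  have hV0 : (Vex role D1 (s + 1) H0 L : ℝ) ≤ 0 := by
    rw [Vex_le_iff le_rfl]
    intro i hi
    have := hb i hi
    linarith
  have hPhi0 : Phi role D1 s H0 L ≤ 8 * (3 / 2 : ℝ) ^ (s + 1) := by
    unfold Phi
    have h1 := Yw_mono role H0 (res_mono role D1 H0 L (Nat.le_succ s))
    have h2 := hb (s + 1) (by rw [mem_Icc]; omega)
    unfold bnd at h2
    simp only [Nat.succ_eq_add_one] at h1
    linarith
  have hPhi : Phi role D1 s H' L ≤ 8 * (3 / 2 : ℝ) ^ (s + 1) := (hmin H0 h0).trans hPhi0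
  have hVle : (Vex role D1 (s + 1) H' L : ℝ) ≤ 32 * (3 / 2 : ℝ) ^ (s + 1) := by
    unfold Phi at hPhi
    have := Yw_nonneg role H' (res role D1 H' L s)
    linarith
  rw [mem_filter] at hH'
  refine ⟨H', hH'.1, hH'.2, ?_, ?_⟩
  · intro hbad
    refine hno (res role D1 H' L s) ⟨H', hH'.1, rfl, hbad, hVle, ?_⟩ hH'.2
    intro H'' h1 h2
    exact hmin H'' (by rw [mem_filter]; exact ⟨h1, h2.trans hH'.2⟩)
  · exact (Vex_le_iff (by positivity)).1 hVle

/-- the descending induction -/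
theorem stage_descend {role : Finset α → α → ℕ} {D1 : ℕ} {F : Finset (Finset α)}
    (hD1 : 0 < D1) {L : α → ℕ} {H : Finset α} (hH : H ∈ F)
    (hY : Yw role H H ≤ 8 * (3 / 2 : ℝ) ^ D1)
    (hno : ∀ s < D1, ∀ T, Out role D1 F s L T → ¬ T ⊆ H) :
    ∃ H0 ∈ F, res role D1 H0 L 0 = ∅ ∧
      ∀ i ∈ Finset.Icc 1 D1, Yw role H0 (res role D1 H0 L i) ≤ 104 * (3 / 2 : ℝ) ^ i := by
  -- the descending claim
  have key : ∀ d, d + 1 ≤ D1 → ∃ H0 ∈ F, res role D1 H0 L (D1 - d) ⊆ H ∧
      ∀ i ∈ Finset.Icc (D1 - d) D1, Yw role H0 (res role D1 H0 L i) ≤ bnd (D1 - d) i := by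
    intro d
    induction d with
    | zero =>
      intro _
      refine ⟨H, hH, ?_, ?_⟩
      · exact filter_subset _ _
      · intro i hi
        rw [mem_Icc] at hi
        have hi' : i = D1 := by omega
        subst hi'
        refine (Yw_mono role H (filter_subset _ _)).trans (hY.trans ?_)
        unfold bnd
        simp only [Nat.sub_zero]
        linarith
    | succ d ih =>
      intro hd
      obtain ⟨H0, h1, h2, h3⟩ := ih (by omega)
      obtain ⟨s, hs⟩ : ∃ s, D1 - d = s + 1 := ⟨D1 - d - 1, by omega⟩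
      have hs' : D1 - (d + 1) = s := by omega
      rw [hs] at h2 h3
      rw [hs']
      obtain ⟨H', g1, g2, g3, g4⟩ := stage_step (by omega : s < D1) h1 h2 h3 (hno s (by omega))
      refine ⟨H', g1, g2, ?_⟩
      intro i hi
      rw [mem_Icc] at hi
      rcases Nat.eq_or_lt_of_le hi.1 with h | h
      · subst h
        have hg3 : ¬ (0 < s ∧ 8 * (3 / 2 : ℝ) ^ s < Yw role H' (res role D1 H' L s)) :=
          fun h => g3 (Or.inr h)
        have : Yw role H' (res role D1 H' L s) ≤ 8 * (3 / 2 : ℝ) ^ s := by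
          by_contra hcon
          exact hg3 ⟨by omega, not_le.1 hcon⟩
        unfold bnd
        linarith
      · have := g4 i (by rw [mem_Icc]; omega)
        unfold bnd at this ⊢
        rw [pow_succ] at this
        linarith
  obtain ⟨H0, h1, h2, h3⟩ := key (D1 - 1) (by omega)
  have hs : D1 - (D1 - 1) = 0 + 1 := by omega
  rw [hs] at h2 h3
  obtain ⟨H', g1, g2, g3, g4⟩ := stage_step hD1 h1 h2 h3 (hno 0 hD1)
  refine ⟨H', g1, ?_, ?_⟩
  · by_contra hne
    exact g3 (Or.inl ⟨rfl, nonempty_iff_ne_empty.2 hne⟩)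
  · intro i hi
    have := g4 i hi
    unfold bnd at this
    norm_num at this ⊢
    linarith

end Stage

end Vale.Agent.P034
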