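import Vale.Agent.Lib.P034.Stage

set_option linter.unusedSectionVars false

namespace Vale.Agent.P034

open Finset

section StageCost

variable {α : Type*} [DecidableEq α]

/-- the multiplicative weight `q / μ(L' x)` of an element of role `k` at stage `s` -/
noncomputable def mw (s k : ℕ) : ℝ := (1 / 1024) * (3 / 4 : ℝ) ^ (k + 1) / (3 / 4 : ℝ) ^ s

theorem mw_nonneg (s k : ℕ) : 0 ≤ mw s k := by unfold mw; positivity

theorem mw_eq (s k : ℕ) : mw s k = (3 / 4096) * ((3 / 4 : ℝ) ^ k / (3 / 4 : ℝ) ^ s) := by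
  unfold mw; rw [pow_succ]; ring

theorem sum_low (R : Finset α) (r : α → ℕ)
    (hcount : ∀ k, ((R.filter fun x => r x = k).card : ℝ) ≤ 2 ^ k) (s : ℕ) :
    ∑ x ∈ R.filter (fun x => r x < s), (3 / 4 : ℝ) ^ (r x) ≤ 2 * (3 / 2 : ℝ) ^ s := by
  have h1 : ∑ x ∈ R.filter (fun x => r x < s), (3 / 4 : ℝ) ^ (r x)
      = ∑ k ∈ range s, ∑ x ∈ (R.filter (fun x => r x < s)).filter (fun x => r x = k),
          (3 / 4 : ℝ) ^ (r x) := by
    rw [sum_fiberwise_of_maps_to]
    intro x hx
    rw [mem_filter] at hx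
    rw [mem_range]; exact hx.2
  rw [h1]
  have h2 : ∀ k ∈ range s,
      ∑ x ∈ (R.filter (fun x => r x < s)).filter (fun x => r x = k), (3 / 4 : ℝ) ^ (r x)
        ≤ (3 / 2 : ℝ) ^ k := by
    intro k hk
    rw [mem_range] at hk
    have h3 : (R.filter (fun x => r x < s)).filter (fun x => r x = k)
        = R.filter (fun x => r x = k) := by
      ext x
      simp only [mem_filter]
      constructor
      · rintro ⟨⟨a, _⟩, c⟩; exact ⟨a, c⟩
      · rintro ⟨a, c⟩; exact ⟨⟨a, by omega⟩, c⟩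
    rw [h3]
    have h4 : ∑ x ∈ R.filter (fun x => r x = k), (3 / 4 : ℝ) ^ (r x)
        = ∑ x ∈ R.filter (fun x => r x = k), (3 / 4 : ℝ) ^ k := by
      refine sum_congr rfl fun x hx => ?_
      rw [mem_filter] at hx; rw [hx.2]
    rw [h4, sum_const, nsmul_eq_mul]
    calc ((R.filter fun x => r x = k).card : ℝ) * (3 / 4 : ℝ) ^ k
        ≤ 2 ^ k * (3 / 4 : ℝ) ^ k :=
          mul_le_mul_of_nonneg_right (hcount k) (by positivity)
      _ = (3 / 2 : ℝ) ^ k := by rw [← mul_pow]; norm_num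
  refine (sum_le_sum h2).trans ?_
  rw [geom_sum_eq (by norm_num)]
  have : (0 : ℝ) < (3 / 2 : ℝ) ^ s := by positivity
  rw [div_le_iff₀ (by norm_num)]
  linarith

theorem one_add_le_exp_low (u : ℝ) (hu : 0 ≤ u) :
    1 + (3 / 4096) * u * Real.exp u ≤ Real.exp (2 * u) := by
  have h1 : 1 ≤ Real.exp u := Real.one_le_exp hu
  have h2 : (3 / 4096) * u + 1 ≤ Real.exp u := by
    have := Real.add_one_le_exp u
    linarith
  have h3 : Real.exp (2 * u) = Real.exp u * Real.exp u := by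
    rw [← Real.exp_add]; congr 1; ring
  rw [h3]
  nlinarith

theorem one_add_le_exp_high (u : ℝ) (hu : 0 ≤ u) (hu1 : u ≤ 1) :
    1 + (3 / 4096) * u * Real.exp u ≤ Real.exp ((9 / 4096) * u) := by
  have h1 : Real.exp u ≤ 3 := by
    have h2 : Real.exp u ≤ Real.exp 1 := Real.exp_le_exp.2 hu1
    have h3 := Real.exp_one_lt_d9
    linarith
  have h2 := Real.add_one_le_exp ((9 / 4096) * u)
  nlinarith

theorem stage_cost_pos (R : Finset α) (r : α → ℕ)
    (hcount : ∀ k, ((R.filter fun x => r x = k).card : ℝ) ≤ 2 ^ k) {s : ℕ} (hs : 0 < s)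
    (hY : ∑ x ∈ R, (3 / 4 : ℝ) ^ (r x) ≤ 40 * (3 / 2 : ℝ) ^ (s + 1)) :
    ∑ T ∈ R.powerset.filter (fun T => 8 * (3 / 2 : ℝ) ^ s < ∑ x ∈ T, (3 / 4 : ℝ) ^ (r x)),
      ∏ x ∈ T, mw s (r x) ≤ (1 / 100 : ℝ) ^ s := by
  set u : α → ℝ := fun x => (3 / 4 : ℝ) ^ (r x) / (3 / 4 : ℝ) ^ s with hu
  have hu0 : ∀ x, 0 ≤ u x := fun x => by simp only [hu]; positivity
  have hρ : (0 : ℝ) < (3 / 4 : ℝ) ^ s := by positivity
  have h2s : (3 / 2 : ℝ) ^ s / (3 / 4 : ℝ) ^ s = 2 ^ s := by
    rw [← div_pow]; norm_num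
  have hmw : ∀ x, mw s (r x) = (3 / 4096) * u x := fun x => mw_eq s (r x)
  -- step 1
  have h1 : ∑ T ∈ R.powerset.filter
        (fun T => 8 * (3 / 2 : ℝ) ^ s < ∑ x ∈ T, (3 / 4 : ℝ) ^ (r x)),
      ∏ x ∈ T, mw s (r x)
      ≤ ∑ T ∈ R.powerset, Real.exp (-(8 * 2 ^ s)) * ∏ x ∈ T, (mw s (r x) * Real.exp (u x)) := by
    refine (sum_le_sum (g := fun T => Real.exp (-(8 * 2 ^ s)) *
      ∏ x ∈ T, (mw s (r x) * Real.exp (u x))) ?_).trans ?_
    · intro T hT
      rw [mem_filter] at hT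
      rw [prod_mul_distrib, ← Real.exp_sum]
      have h3 : (8 : ℝ) * 2 ^ s ≤ ∑ x ∈ T, u x := by
        have h4 : ∑ x ∈ T, u x = (∑ x ∈ T, (3 / 4 : ℝ) ^ (r x)) / (3 / 4 : ℝ) ^ s := by
          rw [sum_div]
        rw [h4, le_div_iff₀ hρ]
        refine le_trans (le_of_eq ?_) hT.2.le
        rw [← h2s]
        field_simp
      have h5 : (1 : ℝ) ≤ Real.exp (-(8 * 2 ^ s)) * Real.exp (∑ x ∈ T, u x) := by
        rw [← Real.exp_add]
        exact Real.one_le_exp (by linarith)
      have h6 : 0 ≤ ∏ x ∈ T, mw s (r x) := prod_nonneg fun x _ => mw_nonneg s (r x)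
      calc ∏ x ∈ T, mw s (r x) = (∏ x ∈ T, mw s (r x)) * 1 := by ring
        _ ≤ (∏ x ∈ T, mw s (r x)) * (Real.exp (-(8 * 2 ^ s)) * Real.exp (∑ x ∈ T, u x)) :=
            mul_le_mul_of_nonneg_left h5 h6
        _ = _ := by ring
    · refine sum_le_sum_of_subset_of_nonneg (filter_subset _ _) fun T _ _ => ?_
      refine mul_nonneg (Real.exp_pos _).le (prod_nonneg fun x _ => ?_)
      exact mul_nonneg (mw_nonneg s (r x)) (Real.exp_pos _).le
  refine h1.trans ?_
  rw [← mul_sum, ← prod_one_add]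
  -- step 2
  have h2 : ∏ x ∈ R, (1 + mw s (r x) * Real.exp (u x))
      ≤ ∏ x ∈ R, Real.exp ((if r x < s then 2 * u x else 0) + (9 / 4096) * u x) := by
    refine prod_le_prod (fun x _ => ?_) fun x _ => ?_
    · have := mul_nonneg (mw_nonneg s (r x)) (Real.exp_pos (u x)).le
      linarith
    · rw [hmw]
      by_cases h : r x < s
      · rw [if_pos h]
        refine (one_add_le_exp_low (u x) (hu0 x)).trans (Real.exp_le_exp.2 ?_)
        have := hu0 x
        linarith
      · rw [if_neg h, zero_add]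
        refine one_add_le_exp_high (u x) (hu0 x) ?_
        simp only [hu]
        rw [div_le_one hρ]
        exact pow_le_pow_of_le_one (by norm_num) (by norm_num) (not_lt.1 h)
  have h3 : ∏ x ∈ R, Real.exp ((if r x < s then 2 * u x else 0) + (9 / 4096) * u x)
      ≤ Real.exp (4 * 2 ^ s + (1 / 5) * 2 ^ s) := by
    rw [← Real.exp_sum]
    refine Real.exp_le_exp.2 ?_
    rw [sum_add_distrib, ← sum_filter, ← mul_sum, ← mul_sum]
    have h4 : ∑ x ∈ R.filter (fun x => r x < s), u x ≤ 2 * 2 ^ s := by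
      simp only [hu]
      rw [← sum_div, div_le_iff₀ hρ]
      refine (sum_low R r hcount s).trans (le_of_eq ?_)
      rw [← h2s]; field_simp
    have h5 : ∑ x ∈ R, u x ≤ 60 * 2 ^ s := by
      simp only [hu]
      rw [← sum_div, div_le_iff₀ hρ]
      refine hY.trans (le_of_eq ?_)
      rw [← h2s, pow_succ]; field_simp; norm_num
    have h6 : (0 : ℝ) < 2 ^ s := by positivity
    linarith
  calc Real.exp (-(8 * 2 ^ s)) * ∏ x ∈ R, (1 + mw s (r x) * Real.exp (u x))
      ≤ Real.exp (-(8 * 2 ^ s)) * Real.exp (4 * 2 ^ s + (1 / 5) * 2 ^ s) :=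
        mul_le_mul_of_nonneg_left (h2.trans h3) (Real.exp_pos _).le
    _ = Real.exp (-(8 * 2 ^ s) + (4 * 2 ^ s + (1 / 5) * 2 ^ s)) := by rw [← Real.exp_add]
    _ ≤ Real.exp (-(7 * s)) := by
        refine Real.exp_le_exp.2 ?_
        have h7 : 2 * (s : ℝ) ≤ 2 ^ s := by
          have : 2 * s ≤ 2 ^ s := by
            clear hmw hY h1 h2 h3 h2s hρ hu0 hu u
            induction s with
            | zero => omega
            | succ n ih =>
              rcases Nat.eq_zero_or_pos n with h | h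
              · subst h; norm_num
              · have := ih h
                rw [pow_succ]; omega
          exact_mod_cast this
        linarith
    _ = (Real.exp (-7)) ^ s := by
        rw [← Real.exp_nat_mul]; congr 1; ring
    _ ≤ (1 / 100 : ℝ) ^ s := by
        refine pow_le_pow_left₀ (Real.exp_pos _).le ?_ s
        rw [Real.exp_neg, inv_eq_one_div]
        refine one_div_le_one_div_of_le (by norm_num) ?_
        have h8 : (2 : ℝ) ≤ Real.exp 1 := by
          have := Real.add_one_le_exp (1 : ℝ)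
          linarith
        have h9 : Real.exp 7 = (Real.exp 1) ^ 7 := by
          rw [← Real.exp_nat_mul]; norm_num
        rw [h9]
        calc (100 : ℝ) ≤ 2 ^ 7 := by norm_num
          _ ≤ _ := pow_le_pow_left₀ (by norm_num) h8 7

theorem stage_cost_zero (R : Finset α) (r : α → ℕ)
    (hY : ∑ x ∈ R, (3 / 4 : ℝ) ^ (r x) ≤ 40 * (3 / 2 : ℝ) ^ (0 + 1)) :
    ∑ T ∈ R.powerset.filter (fun T => T.Nonempty), ∏ x ∈ T, mw 0 (r x) ≤ 1 / 20 := by
  have h1 : ∑ T ∈ R.powerset, ∏ x ∈ T, mw 0 (r x)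
      = ∑ T ∈ R.powerset.filter (fun T => T.Nonempty), ∏ x ∈ T, mw 0 (r x) + 1 := by
    rw [← sum_filter_add_sum_filter_not R.powerset (fun T : Finset α => T.Nonempty)]
    congr 1
    have : R.powerset.filter (fun T => ¬ T.Nonempty) = {∅} := by
      ext T
      simp only [mem_filter, mem_powerset, not_nonempty_iff_eq_empty, mem_singleton]
      constructor
      · rintro ⟨_, h⟩; exact h
      · rintro rfl; exact ⟨empty_subset _, rfl⟩
    rw [this]; simp
  have h2 : ∏ x ∈ R, (1 + mw 0 (r x)) ≤ Real.exp (45 / 1024) := by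
    have h3 : ∏ x ∈ R, (1 + mw 0 (r x)) ≤ ∏ x ∈ R, Real.exp (mw 0 (r x)) := by
      refine prod_le_prod (fun x _ => ?_) fun x _ => ?_
      · have := mw_nonneg 0 (r x); linarith
      · have := Real.add_one_le_exp (mw 0 (r x)); linarith
    refine h3.trans ?_
    rw [← Real.exp_sum]
    refine Real.exp_le_exp.2 ?_
    have h4 : ∀ x ∈ R, mw 0 (r x) = (3 / 4096) * (3 / 4 : ℝ) ^ (r x) := by
      intro x _
      rw [mw_eq]; simp
    rw [sum_congr rfl h4, ← mul_sum]
    norm_num at hY ⊢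
    linarith
  have h5 : Real.exp (45 / 1024) ≤ 21 / 20 := by
    have h6 : 1 - (45 / 1024 : ℝ) ≤ Real.exp (-(45 / 1024)) := by
      have := Real.add_one_le_exp (-(45 / 1024) : ℝ)
      linarith
    rw [Real.exp_neg] at h6
    have h7 : (0 : ℝ) < Real.exp (45 / 1024) := Real.exp_pos _
    have h8 := mul_le_mul_of_nonneg_right h6 h7.le
    rw [inv_mul_cancel₀ h7.ne'] at h8
    linarith
  have h9 := prod_one_add (s := R) (f := fun x => mw 0 (r x))
  linarith [h1, h2, h5, h9]

/-- the bound for the cost of stage `s` -/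
noncomputable def costBd (s : ℕ) : ℝ := if s = 0 then 1 / 20 else (1 / 100 : ℝ) ^ s

theorem stage_cost {role : Finset α → α → ℕ} {H R : Finset α} {s : ℕ} (hRH : R ⊆ H)
    (hcount : ∀ k, ((H.filter fun x => role H x = k).card : ℝ) ≤ 2 ^ k)
    (hY : Yw role H R ≤ 40 * (3 / 2 : ℝ) ^ (s + 1)) [DecidablePred (IsBad role s H)] :
    ∑ T ∈ R.powerset.filter (IsBad role s H), ∏ x ∈ T, mw s (role H x) ≤ costBd s := by
  have hcountR : ∀ k, ((R.filter fun x => role H x = k).card : ℝ) ≤ 2 ^ k := by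
    intro k
    refine le_trans ?_ (hcount k)
    exact_mod_cast card_le_card (filter_subset_filter _ hRH)
  rcases Nat.eq_zero_or_pos s with h | h
  · subst h
    have h1 : R.powerset.filter (IsBad role 0 H) = R.powerset.filter (fun T => T.Nonempty) := by
      refine filter_congr fun T _ => ?_
      unfold IsBad
      simp
    rw [h1]
    unfold costBd
    rw [if_pos rfl]
    exact stage_cost_zero R (role H) hY
  · have h1 : R.powerset.filter (IsBad role s H) = R.powerset.filter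
        (fun T => 8 * (3 / 2 : ℝ) ^ s < ∑ x ∈ T, (3 / 4 : ℝ) ^ (role H x)) := by
      refine filter_congr fun T _ => ?_
      unfold IsBad Yw
      constructor
      · rintro (⟨h2, _⟩ | ⟨_, h2⟩)
        · omega
        · exact h2
      · intro h2; exact Or.inr ⟨h, h2⟩
    rw [h1]
    unfold costBd
    rw [if_neg (by omega)]
    exact stage_cost_pos R (role H) hcountR h hY

theorem sum_costBd (n : ℕ) : ∑ s ∈ range n, costBd s ≤ 3 / 50 + 1 / 1000 := by
  have h1 : ∀ n, ∑ s ∈ range (n + 1), costBd s ≤ 1 / 20 + (1 / 99 - (1 / 99) * (1 / 100) ^ n) := by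
    intro n
    induction n with
    | zero => simp [costBd]
    | succ m ih =>
      rw [sum_range_succ]
      have : costBd (m + 1) = (1 / 100 : ℝ) ^ (m + 1) := by simp [costBd]
      rw [this, pow_succ]
      linarith
  rcases n with _ | n
  · simp; norm_num
  · refine (h1 n).trans ?_
    have : (0 : ℝ) < (1 / 99) * (1 / 100) ^ n := by positivity
    linarith

end StageCost

end Vale.Agent.P034
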